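import Vale.Agent.P095N.Defs

/-!
# P095N: the final theorem, modulo the modules
-/

open Filter Topology BoundedContinuousFunction

namespace Vale.Agent.P095N

open Vale.Agent.P101 Vale.Agent.P101.UltA Vale.Agent.P095

universe u v

section

variable (ω : Ultrafilter ℕ) {B : Type u} [CStarAlgebra B] {G : Type v} [Group G]
  (α : G →* (B ≃⋆ₐ[ℂ] B)) (J : Set B)

lemma ann_act (hJ : ∀ g, ∀ a ∈ J, α g a ∈ J) (g : G) {x : FF ω B} (hx : x ∈ Ann ω J) :
    act ω α g x ∈ Ann ω J := by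
  intro a ha
  rw [act_coe]
  have h1 : constSeq ω a = ultraMap ω (α g) (constSeq ω (α g⁻¹ a)) := by
    rw [ultraMap_const, ← StarAlgEquiv.mul_apply, ← map_mul, mul_inv_cancel, map_one,
      StarAlgEquiv.one_apply]
  rw [h1, ← map_mul, hx _ (hJ g⁻¹ a ha), map_zero]

lemma ann_zero : (0 : FF ω B) ∈ Ann ω J := fun a _ => zero_mul _

lemma ann_add {x y : FF ω B} (hx : x ∈ Ann ω J) (hy : y ∈ Ann ω J) : x + y ∈ Ann ω J := by
  intro a ha
  have h1 := hx a ha
  have h2 := hy a ha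
  change ((x : Ultrapower ω B) + (y : Ultrapower ω B)) * constSeq ω a = 0
  rw [add_mul, h1, h2, add_zero]

lemma ann_mul {x : FF ω B} (hx : x ∈ Ann ω J) (y : FF ω B) :
    x * y ∈ Ann ω J ∧ y * x ∈ Ann ω J := by
  constructor
  · intro a ha
    have h1 := hx a ha
    have h2 : (y : Ultrapower ω B) * constSeq ω a = constSeq ω a * (y : Ultrapower ω B) :=
      ((mem_central' ω).1 y.2 a).symm
    change ((x : Ultrapower ω B) * (y : Ultrapower ω B)) * constSeq ω a = 0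
    rw [mul_assoc, h2, ← mul_assoc, h1, zero_mul]
  · intro a ha
    have h1 := hx a ha
    change ((y : Ultrapower ω B) * (x : Ultrapower ω B)) * constSeq ω a = 0
    rw [mul_assoc, h1, mul_zero]

lemma ann_star (hJs : ∀ a ∈ J, star a ∈ J) {x : FF ω B} (hx : x ∈ Ann ω J) :
    star x ∈ Ann ω J := by
  intro a ha
  have h1 := hx (star a) (hJs a ha)
  have h2 : (x : Ultrapower ω B) * constSeq ω (star a)
      = constSeq ω (star a) * (x : Ultrapower ω B) := ((mem_central' ω).1 x.2 (star a)).symm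
  rw [h2] at h1
  change star (x : Ultrapower ω B) * constSeq ω a = 0
  obtain ⟨y, hy⟩ := mk_surj ω B (x : Ultrapower ω B)
  rw [← hy] at h1 ⊢
  have h3 : cl ω (BoundedContinuousFunction.const ℕ (star a) * y) = cl ω 0 := h1
  have h4 := (cl_eq ω).1 h3
  change cl ω (star y * BoundedContinuousFunction.const ℕ a) = cl ω 0
  refine (cl_eq ω).2 ?_
  refine h4.congr fun n => ?_
  change ‖star a * y n - 0‖ = ‖star (y n) * a - 0‖
  rw [sub_zero, sub_zero, ← norm_star (star a * y n), star_mul, star_star]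

lemma ann_closed : letI := cs ω (A := B); IsClosed (Ann ω J) := by
  letI := cs ω (A := B)
  refine isClosed_of_closure_subset fun x hx a ha => ?_
  refine eq_zero_of_nrm ω (le_antisymm ?_ (nrm_nonneg ω _))
  refine le_of_forall_pos_le_add fun ε hε => ?_
  have hpos : 0 < nrm ω (constSeq ω a) + 1 := by
    have := nrm_nonneg ω (constSeq ω a)
    linarith
  obtain ⟨y, hy, hxy⟩ := Metric.mem_closure_iff.1 hx (ε / (nrm ω (constSeq ω a) + 1))
    (div_pos hε hpos)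
  rw [dist_eq_norm] at hxy
  have h1 : nrm ω ((x : Ultrapower ω B) - (y : Ultrapower ω B))
      < ε / (nrm ω (constSeq ω a) + 1) := hxy
  have h2 : (x : Ultrapower ω B) * constSeq ω a
      = ((x : Ultrapower ω B) - (y : Ultrapower ω B)) * constSeq ω a := by
    rw [sub_mul, hy a ha, sub_zero]
  rw [h2]
  refine (nrm_mul_le ω _ _).trans ?_
  have h3 := nrm_nonneg ω (constSeq ω a)
  have h4 : ε / (nrm ω (constSeq ω a) + 1) * nrm ω (constSeq ω a) ≤ ε := by
    rw [div_mul_eq_mul_div, div_le_iff₀ hpos]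
    nlinarith
  have h5 := mul_le_mul_of_nonneg_right h1.le h3
  linarith

/-- the automorphisms induced on a quotient -/
theorem exists_action {F : Type u} [Ring F] [StarRing F] [Algebra ℂ F] {Q : Type u} [Ring Q]
    [StarRing Q] [Algebra ℂ Q] (π : F →⋆ₐ[ℂ] Q) (hπ : Function.Surjective π)
    (b : G →* (F ≃⋆ₐ[ℂ] F)) (hb : ∀ g x, π x = 0 → π (b g x) = 0) :
    ∃ βQ : G →* (Q ≃⋆ₐ[ℂ] Q), ∀ g x, βQ g (π x) = π (b g x) := by
  choose l hl using hπ
  have key : ∀ g x y, π x = π y → π (b g x) = π (b g y) := by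
    intro g x y hxy
    have h1 : π (x - y) = 0 := by rw [map_sub, hxy, sub_self]
    have h2 := hb g _ h1
    rw [map_sub, map_sub, sub_eq_zero] at h2
    exact h2
  have key2 : ∀ g x, π (b g (l (π x))) = π (b g x) := fun g x => key g _ _ (hl _)
  have hinv : ∀ g q, π (b g (l (π (b g⁻¹ (l q))))) = q := by
    intro g q
    rw [key2, ← StarAlgEquiv.mul_apply, ← map_mul, mul_inv_cancel, map_one,
      StarAlgEquiv.one_apply, hl]
  let e : G → (Q ≃⋆ₐ[ℂ] Q) := fun g =>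
    { toFun := fun q => π (b g (l q))
      invFun := fun q => π (b g⁻¹ (l q))
      left_inv := fun q => by
        have := hinv g⁻¹ q
        rwa [inv_inv] at this
      right_inv := fun q => hinv g q
      map_mul' := fun p q => by
        rw [← map_mul, ← map_mul]
        exact key g _ _ (by rw [hl, map_mul, hl, hl])
      map_add' := fun p q => by
        rw [← map_add, ← map_add]
        exact key g _ _ (by rw [hl, map_add, hl, hl])
      map_star' := fun q => by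
        rw [← map_star, ← map_star]
        exact key g _ _ (by rw [hl, map_star, hl])
      map_smul' := fun c q => by
        rw [← map_smul, ← map_smul]
        exact key g _ _ (by rw [hl, map_smul, hl]) }
  have he : ∀ g x, e g (π x) = π (b g x) := fun g x => key2 g x
  refine ⟨{ toFun := e, map_one' := ?_, map_mul' := ?_ }, fun g x => he g x⟩
  · refine StarAlgEquiv.ext fun q => ?_
    change π (b 1 (l q)) = q
    rw [map_one, StarAlgEquiv.one_apply, hl]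
  · intro g h
    refine StarAlgEquiv.ext fun q => ?_
    rw [StarAlgEquiv.mul_apply]
    change π (b (g * h) (l q)) = e g (π (b h (l q)))
    rw [he, map_mul, StarAlgEquiv.mul_apply]

end

/-- the data of the quotient -/
structure QData (ω : Ultrafilter ℕ) (A : Type u) [NonUnitalCStarAlgebra A] {G : Type v} [Group G]
    (α : G →* (A ≃⋆ₐ[ℂ] A)) (Q : Type u) [CStarAlgebra Q]
    (π : FF ω (Unitization ℂ A) →⋆ₐ[ℂ] Q) (βQ : G →* (Q ≃⋆ₐ[ℂ] Q)) : Prop where
  surj : Function.Surjective π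
  ker : ∀ x, π x = 0 ↔ x ∈ Ann ω (Set.range (fun a : A => (a : Unitization ℂ A)))
  nrmlift : ∀ (q : Q) (ε : ℝ), 0 < ε → ∃ x : FF ω (Unitization ℂ A), π x = q ∧
    nrm ω (x : Ultrapower ω (Unitization ℂ A)) < ‖q‖ + ε
  equi : ∀ g x, βQ g (π x) = π (act ω (uact α) g x)

lemma J_inv {A : Type u} [NonUnitalCStarAlgebra A] {G : Type v} [Group G]
    (α : G →* (A ≃⋆ₐ[ℂ] A)) (g : G) : ∀ a ∈ Set.range (fun a : A => (a : Unitization ℂ A)),
    uact α g a ∈ Set.range (fun a : A => (a : Unitization ℂ A)) := by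
  rintro _ ⟨a, rfl⟩
  exact ⟨α g a, (uact_inr α g a).symm⟩

theorem exists_Q (hquot : S_QUOT.{u}) (ω : Ultrafilter ℕ) (A : Type u) [NonUnitalCStarAlgebra A]
    {G : Type v} [Group G] (α : G →* (A ≃⋆ₐ[ℂ] A)) : ∃ (Q : Type u) (_ : CStarAlgebra Q)
    (π : FF ω (Unitization ℂ A) →⋆ₐ[ℂ] Q) (βQ : G →* (Q ≃⋆ₐ[ℂ] Q)), QData ω A α Q π βQ := by
  set J : Set (Unitization ℂ A) := Set.range (fun a : A => (a : Unitization ℂ A)) with hJ
  letI := cs ω (A := Unitization ℂ A)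
  obtain ⟨Q, hQ, π, h1, h2, h3⟩ := hquot (FF ω (Unitization ℂ A)) (Ann ω J) (ann_closed ω J)
    (ann_zero ω J) (fun x hx y hy => ann_add ω J hx hy) (fun x hx y => ann_mul ω J hx y)
    (fun x hx => ann_star ω J (by
      rintro _ ⟨a, rfl⟩
      exact ⟨star a, Unitization.inr_star a⟩) hx)
  obtain ⟨βQ, hβ⟩ := exists_action (G := G) π h1 (act ω (uact α)) (by
    intro g x hx
    rw [h2] at hx ⊢
    exact ann_act ω (uact α) J (J_inv α) g hx)
  exact ⟨Q, hQ, π, βQ, h1, h2, h3, hβ⟩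

section

variable {ω : Ultrafilter ℕ} {A : Type u} [NonUnitalCStarAlgebra A]
  [TopologicalSpace.SeparableSpace A] {G : Type v} [Group G] [Countable G]
  {α : G →* (A ≃⋆ₐ[ℂ] A)} {Q : Type u} [CStarAlgebra Q]
  {π : FF ω (Unitization ℂ A) →⋆ₐ[ℂ] Q} {βQ : G →* (Q ≃⋆ₐ[ℂ] Q)}

theorem QData.selfComm (hqself : S_QSELF.{u, v}) (hω : (ω : Filter ℕ) ≤ Filter.cofinite)
    (D : QData ω A α Q π βQ) (K : Subgroup G) : EqSelfComm Q (fun g : K => βQ g) :=
  hqself (Unitization ℂ A) ω hω K ((uact α).comp K.subtype)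
    (Set.range (fun a : A => (a : Unitization ℂ A))) (fun g => J_inv α g) Q π D.surj D.ker
    (βQ.comp K.subtype) (fun g x => D.equi g x)

/-- the quotient analogue of Theorem A -/
theorem QData.dim (hqself : S_QSELF.{u, v}) (hω : (ω : Filter ℕ) ≤ Filter.cofinite)
    (D : QData ω A α Q π βQ) (K : Subgroup G)
    (h : IsEmpty (fixAlg Q (fun g : K => βQ g) →⋆ₐ[ℂ] ℂ)) (n : ℕ) :
    Nonempty (DimDrop (n + 2) (n + 3) →⋆ₐ[ℂ] fixAlg Q (fun g : K => βQ g)) := by
  obtain ⟨E, _, ⟨e2⟩, hE⟩ := fixsc Q K (fun g : K => βQ g) (D.selfComm hqself hω K)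
  have hEχ : IsEmpty (E →⋆ₐ[ℂ] ℂ) :=
    ⟨fun χ => h.false (χ.comp ((e2.symm : fixAlg Q (fun g : K => βQ g) ≃⋆ₐ[ℂ] E) :
      fixAlg Q (fun g : K => βQ g) →⋆ₐ[ℂ] E))⟩
  obtain ⟨ρ⟩ := Vale.Agent.P101.dim E n (abstract E hE hEχ n)
  exact ⟨((e2 : E ≃⋆ₐ[ℂ] fixAlg Q (fun g : K => βQ g)) :
    E →⋆ₐ[ℂ] fixAlg Q (fun g : K => βQ g)).comp ρ⟩

/-- bigger groups have smaller fixed point algebras -/
theorem noChar_monoQ {H K : Subgroup G} (hHK : H ≤ K)
    (h : IsEmpty (fixAlg Q (fun g : K => βQ g) →⋆ₐ[ℂ] ℂ)) :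
    IsEmpty (fixAlg Q (fun g : H => βQ g) →⋆ₐ[ℂ] ℂ) :=
  ⟨fun χ => h.false (χ.comp (StarSubalgebra.inclusion fun x hx g => hx ⟨g, hHK g.2⟩))⟩

theorem QData.finidx (hqself : S_QSELF.{u, v}) (hω : (ω : Filter ℕ) ≤ Filter.cofinite)
    (D : QData ω A α Q π βQ) (H K : Subgroup G) (hf : (H.subgroupOf K).FiniteIndex)
    (h : IsEmpty (fixAlg Q (fun g : H => βQ g) →⋆ₐ[ℂ] ℂ)) :
    IsEmpty (fixAlg Q (fun g : K => βQ g) →⋆ₐ[ℂ] ℂ) := by
  refine Vale.Agent.P095.finidx finite Q K (βQ.comp K.subtype) (H.subgroupOf K)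
    (D.selfComm hqself hω K) ?_
  have h' : IsEmpty (fixAlg Q (fun g : (H ⊓ K : Subgroup G) => βQ g) →⋆ₐ[ℂ] ℂ) :=
    noChar_monoQ inf_le_left h
  refine ⟨fun χ => h'.false (χ.comp (StarSubalgebra.inclusion fun x hx g => ?_))⟩
  exact hx ⟨(g : K), ⟨g.2, (g : K).2⟩⟩

theorem QData.top (hqself : S_QSELF.{u, v}) (hloc : S_LOC.{u, v})
    (hω : (ω : Filter ℕ) ≤ Filter.cofinite) (D : QData ω A α Q π βQ)
    (h : ∀ s : Finset G, ∃ H K : Subgroup G, (s : Set G) ⊆ K ∧ (H.subgroupOf K).FiniteIndex ∧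
      IsEmpty (fixAlg Q (fun g : H => βQ g) →⋆ₐ[ℂ] ℂ)) :
    IsEmpty (fixAlg Q (fun g : (⊤ : Subgroup G) => βQ g) →⋆ₐ[ℂ] ℂ) := by
  have h1 : IsEmpty (fixAlg Q (fun g => βQ g) →⋆ₐ[ℂ] ℂ) := by
    refine hloc (Unitization ℂ A) ω hω G (uact α)
      (Set.range (fun a : A => (a : Unitization ℂ A))) (fun g => J_inv α g) Q π D.surj D.ker
      D.nrmlift βQ D.equi fun s => ?_
    obtain ⟨H, K, h1, h2, h3⟩ := h s
    exact ⟨K, h1, D.finidx hqself hω H K h2 h3⟩
  refine ⟨fun χ => h1.false (χ.comp (StarSubalgebra.inclusion fun x hx g => hx g))⟩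

theorem QData.iff (hqself : S_QSELF.{u, v}) (hin : S_IN.{u, v}) (hout : S_OUT.{u, v})
    (hω : (ω : Filter ℕ) ≤ Filter.cofinite) (D : QData ω A α Q π βQ) (H : Subgroup G) :
    DimDropsMap ω α H ↔ IsEmpty (fixAlg Q (fun g : H => βQ g) →⋆ₐ[ℂ] ℂ) := by
  constructor
  · intro h
    obtain ⟨ρ, hρ⟩ := h 0
    obtain ⟨φ⟩ := hin A ω hω G α Q π D.surj D.ker βQ D.equi H _ _ ρ hρ
    exact ⟨fun χ => (dimDrop_noChar 0 1).false (χ.comp φ)⟩
  · intro h n
    exact hout A ω hω G α Q π D.surj D.ker βQ D.equi H _ _ (D.dim hqself hω H h n)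

end

/-- overgroups of finite index and directed unions -/
theorem dimDropsMap_top (hquot : S_QUOT.{u}) (hqself : S_QSELF.{u, v}) (hloc : S_LOC.{u, v})
    (hin : S_IN.{u, v}) (hout : S_OUT.{u, v}) (ω : Ultrafilter ℕ)
    (hω : (ω : Filter ℕ) ≤ Filter.cofinite) {A : Type u} [NonUnitalCStarAlgebra A]
    [TopologicalSpace.SeparableSpace A] {G : Type v} [Group G] [Countable G]
    (α : G →* (A ≃⋆ₐ[ℂ] A))
    (h : ∀ s : Finset G, ∃ H K : Subgroup G, (s : Set G) ⊆ K ∧ (H.subgroupOf K).FiniteIndex ∧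
      DimDropsMap ω α H) : DimDropsMap ω α ⊤ := by
  obtain ⟨Q, _, π, βQ, D⟩ := exists_Q hquot ω A α
  rw [D.iff hqself hin hout hω]
  refine D.top hqself hloc hω fun s => ?_
  obtain ⟨H, K, h1, h2, h3⟩ := h s
  exact ⟨H, K, h1, h2, (D.iff hqself hin hout hω H).1 h3⟩

theorem dimDropsMap_mono (ω : Ultrafilter ℕ) {A : Type u} [NonUnitalCStarAlgebra A]
    {G : Type v} [Group G] (α : G →* (A ≃⋆ₐ[ℂ] A)) {H K : Subgroup G} (hHK : H ≤ K)
    (h : DimDropsMap ω α K) : DimDropsMap ω α H := by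
  intro n
  obtain ⟨ρ, hρ⟩ := h n
  exact ⟨ρ, hρ.central, hρ.add, hρ.smul, hρ.mul, hρ.star, hρ.one,
    fun g hg => hρ.fixed g (hHK hg)⟩

end Vale.Agent.P095N
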