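import Vale.Agent.P095N.Defs

/-!
# P095N: from representatives to the quotient
-/

open Filter Topology BoundedContinuousFunction

namespace Vale.Agent.P095N

open Vale.Agent.P101 Vale.Agent.P101.UltA Vale.Agent.P095

universe u v

namespace In

variable {A : Type u} [NonUnitalCStarAlgebra A]

/-- a bounded sequence in `A` as a sequence in the unitization -/
noncomputable def up (z : ℕ →ᵇ A) : ℕ →ᵇ Unitization ℂ A :=
  BoundedContinuousFunction.ofNormedAddCommGroupDiscrete (fun n => ((z n : A) : Unitization ℂ A))
    ‖z‖ fun n => by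
      rw [Unitization.norm_inr]
      exact z.norm_coe_le_norm n

lemma up_apply (z : ℕ →ᵇ A) (n : ℕ) : up z n = ((z n : A) : Unitization ℂ A) := rfl

lemma up_central (ω : Ultrafilter ℕ) (z : ℕ →ᵇ A)
    (h : ∀ a : A, Tendsto (fun n => ‖z n * a - a * z n‖) ω (𝓝 0)) :
    cl ω (up z) ∈ CentralSeq ω (Unitization ℂ A) := by
  rw [mem_central']
  intro c
  change cl ω (BoundedContinuousFunction.const ℕ c * up z)
    = cl ω (up z * BoundedContinuousFunction.const ℕ c)
  refine (cl_eq ω).2 ?_
  induction c with
  | inl_add_inr r a =>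
    refine (h a).congr fun n => ?_
    change _ = ‖(Unitization.inl r + (a : Unitization ℂ A)) * up z n
      - up z n * (Unitization.inl r + (a : Unitization ℂ A))‖
    rw [up_apply, add_mul, mul_add, Unitization.inl_mul_inr, Unitization.inr_mul_inl,
      ← Unitization.inr_mul, ← Unitization.inr_mul, add_sub_add_left_eq_sub, ← Unitization.inr_sub,
      Unitization.norm_inr, norm_sub_rev]

end In

open In in
theorem in_ : S_IN.{u, v} := by
  intro A _ _ ω hω G _ _ α Q _ π hπ hker βQ hβ H p q ρ hρ
  have hs : ∀ x y : FF ω (Unitization ℂ A), π (x - y) = π x - π y := by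
    intro x y
    rw [eq_sub_iff_add_eq, ← map_add]
    exact congrArg π (sub_add_cancel x y)
  have key : ∀ (w : ℕ →ᵇ Unitization ℂ A) (W : FF ω (Unitization ℂ A)),
      cl ω w = (W : Ultrapower ω (Unitization ℂ A)) →
      (∀ a : A, Tendsto (fun n => ‖w n * (a : Unitization ℂ A)‖) ω (𝓝 0)) → π W = 0 := by
    intro w W hw h
    rw [hker]
    rintro _ ⟨a, rfl⟩
    rw [← hw]
    change cl ω (w * BoundedContinuousFunction.const ℕ (a : Unitization ℂ A)) = cl ω 0
    refine (cl_eq ω).2 ?_
    refine (h a).congr fun n => ?_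
    change _ = ‖w n * (a : Unitization ℂ A) - 0‖
    rw [sub_zero]
  let Y : DimDrop p q → FF ω (Unitization ℂ A) := fun x =>
    ⟨cl ω (up (ρ x)), up_central ω (ρ x) (hρ.central x)⟩
  have yadd : ∀ x y, π (Y (x + y)) = π (Y x) + π (Y y) := by
    intro x y
    rw [← map_add, ← sub_eq_zero, ← hs]
    refine key (up (ρ (x + y)) - (up (ρ x) + up (ρ y))) _ rfl fun a => ?_
    refine (hρ.add x y a).congr fun n => ?_
    change _ = ‖(((ρ (x + y) n : A) : Unitization ℂ A) - (((ρ x n : A) : Unitization ℂ A)
      + ((ρ y n : A) : Unitization ℂ A))) * (a : Unitization ℂ A)‖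
    rw [← Unitization.inr_add, ← Unitization.inr_sub, ← Unitization.inr_mul, Unitization.norm_inr]
  have ysmul : ∀ (c : ℂ) x, π (Y (c • x)) = c • π (Y x) := by
    intro c x
    rw [← map_smul, ← sub_eq_zero, ← hs]
    refine key (up (ρ (c • x)) - c • up (ρ x)) _ rfl fun a => ?_
    refine (hρ.smul c x a).congr fun n => ?_
    change _ = ‖(((ρ (c • x) n : A) : Unitization ℂ A) - c • ((ρ x n : A) : Unitization ℂ A))
      * (a : Unitization ℂ A)‖
    rw [← Unitization.inr_smul, ← Unitization.inr_sub, ← Unitization.inr_mul,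
      Unitization.norm_inr]
  have ymul : ∀ x y, π (Y (x * y)) = π (Y x) * π (Y y) := by
    intro x y
    rw [← map_mul, ← sub_eq_zero, ← hs]
    refine key (up (ρ (x * y)) - (up (ρ x) * up (ρ y))) _ rfl fun a => ?_
    refine (hρ.mul x y a).congr fun n => ?_
    change _ = ‖(((ρ (x * y) n : A) : Unitization ℂ A) - (((ρ x n : A) : Unitization ℂ A)
      * ((ρ y n : A) : Unitization ℂ A))) * (a : Unitization ℂ A)‖
    rw [← Unitization.inr_mul, ← Unitization.inr_sub, ← Unitization.inr_mul, Unitization.norm_inr]
  have ystar : ∀ x, π (Y (star x)) = star (π (Y x)) := by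
    intro x
    rw [← map_star, ← sub_eq_zero, ← hs]
    refine key (up (ρ (star x)) - star (up (ρ x))) _ rfl fun a => ?_
    refine (hρ.star x a).congr fun n => ?_
    change _ = ‖(((ρ (star x) n : A) : Unitization ℂ A) - star ((ρ x n : A) : Unitization ℂ A))
      * (a : Unitization ℂ A)‖
    rw [← Unitization.inr_star, ← Unitization.inr_sub, ← Unitization.inr_mul,
      Unitization.norm_inr]
  have yone : π (Y 1) = 1 := by
    rw [← map_one π, ← sub_eq_zero, ← hs]
    refine key (up (ρ 1) - 1) _ rfl fun a => ?_
    refine (hρ.one a).congr fun n => ?_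
    change _ = ‖(((ρ 1 n : A) : Unitization ℂ A) - 1) * (a : Unitization ℂ A)‖
    rw [sub_mul, one_mul, ← Unitization.inr_mul, ← Unitization.inr_sub, Unitization.norm_inr]
  have yfix : ∀ x (g : H), βQ g (π (Y x)) = π (Y x) := by
    intro x g
    rw [hβ, ← sub_eq_zero, ← hs]
    refine key (seqMap (uact α g) (up (ρ x)) - up (ρ x)) _ rfl fun a => ?_
    refine (hρ.fixed g g.2 x a).congr fun n => ?_
    change _ = ‖(uact α g ((ρ x n : A) : Unitization ℂ A) - ((ρ x n : A) : Unitization ℂ A))
      * (a : Unitization ℂ A)‖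
    rw [uact_inr, ← Unitization.inr_sub, ← Unitization.inr_mul, Unitization.norm_inr]
  exact ⟨{ toFun := fun x => ⟨π (Y x), yfix x⟩
           map_one' := Subtype.ext yone
           map_mul' := fun x y => Subtype.ext (ymul x y)
           map_zero' := Subtype.ext (by
             have h1 := ysmul 0 0
             rw [zero_smul, zero_smul] at h1
             exact h1)
           map_add' := fun x y => Subtype.ext (yadd x y)
           commutes' := fun c => Subtype.ext (by
             have h1 := ysmul c 1
             rw [yone] at h1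
             rw [Algebra.algebraMap_eq_smul_one, Algebra.algebraMap_eq_smul_one]
             exact h1)
           map_star' := fun x => Subtype.ext (ystar x) }⟩

end Vale.Agent.P095N
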