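import Vale.Agent.P095N.Defs

/-!
# P095N, module OUT: from homomorphisms into the quotient to representatives
-/

open Filter Topology BoundedContinuousFunction

namespace Vale.Agent.P095N.OutX

open Vale.Agent.P101 Vale.Agent.P101.UltA Vale.Agent.P095 Vale.Agent.P095N

universe u v

/-- sequential approximate unit -/
theorem exists_au (A : Type u) [NonUnitalCStarAlgebra A] [TopologicalSpace.SeparableSpace A] :
    ∃ e : ℕ → A, (∀ n, ‖e n‖ ≤ 1) ∧ (∀ n, star (e n) = e n) ∧
      (∀ a, Tendsto (fun n => ‖e n * a - a‖) atTop (𝓝 0)) ∧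
      (∀ a, Tendsto (fun n => ‖a * e n - a‖) atTop (𝓝 0)) := by
  let _ := CStarAlgebra.spectralOrder A
  have _ := CStarAlgebra.spectralOrderedRing A
  have hau := CStarAlgebra.increasingApproximateUnit A
  obtain ⟨s, hs⟩ := TopologicalSpace.exists_dense_seq A
  have hne := hau.neBot
  have h1 : ∀ n : ℕ, ∃ e : A, ‖e‖ ≤ 1 ∧ star e = e ∧
      ∀ k ∈ Finset.range (n + 1), ‖e * s k - s k‖ < 1 / ((n : ℝ) + 1) := by
    intro n
    have h2 : ∀ᶠ e in CStarAlgebra.approximateUnit A, ∀ k ∈ Finset.range (n + 1),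
        ‖e * s k - s k‖ < 1 / ((n : ℝ) + 1) := by
      rw [Filter.eventually_all_finset]
      intro k _
      have h3 := hau.tendsto_mul_right (s k)
      rw [tendsto_iff_norm_sub_tendsto_zero] at h3
      exact h3.eventually (gt_mem_nhds (by positivity))
    obtain ⟨e, h4, h5, h6⟩ := (hau.eventually_norm.and (hau.eventually_star_eq.and h2)).exists
    exact ⟨e, h4, h5, h6⟩
  choose e he1 he2 he3 using h1
  have key : ∀ a, Tendsto (fun n => ‖e n * a - a‖) atTop (𝓝 0) := by
    intro a
    rw [Metric.tendsto_atTop]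
    intro ε hε
    obtain ⟨k, hk⟩ := hs.exists_dist_lt a (show (0 : ℝ) < ε / 4 by positivity)
    obtain ⟨N, hN⟩ := exists_nat_gt (4 / ε)
    refine ⟨max k N, fun n hn => ?_⟩
    rw [Real.dist_0_eq_abs, abs_of_nonneg (norm_nonneg _)]
    have hkn : k ≤ n := le_trans (le_max_left _ _) hn
    have hNn : N ≤ n := le_trans (le_max_right _ _) hn
    have h7 := he3 n k (Finset.mem_range.2 (by omega))
    have h8 : 1 / ((n : ℝ) + 1) < ε / 4 := by
      have : (4 : ℝ) / ε < (n : ℝ) + 1 := by
        have : (N : ℝ) ≤ n := by exact_mod_cast hNn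
        linarith
      rw [div_lt_iff₀ hε] at this
      rw [div_lt_iff₀ (by positivity)]
      linarith
    have h9 : e n * a - a = e n * (a - s k) + (e n * s k - s k) - (a - s k) := by
      rw [mul_sub]
      abel
    have h10 : ‖a - s k‖ < ε / 4 := by rwa [← dist_eq_norm]
    have h11 : ‖e n * (a - s k)‖ ≤ ‖a - s k‖ := by
      refine (norm_mul_le _ _).trans ?_
      calc ‖e n‖ * ‖a - s k‖ ≤ 1 * ‖a - s k‖ :=
            mul_le_mul_of_nonneg_right (he1 n) (norm_nonneg _)
        _ = _ := one_mul _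
    rw [h9]
    calc ‖e n * (a - s k) + (e n * s k - s k) - (a - s k)‖
        ≤ ‖e n * (a - s k) + (e n * s k - s k)‖ + ‖a - s k‖ := norm_sub_le _ _
      _ ≤ ‖e n * (a - s k)‖ + ‖e n * s k - s k‖ + ‖a - s k‖ := by
          gcongr
          exact norm_add_le _ _
      _ < ε := by linarith
  refine ⟨e, he1, he2, key, fun a => ?_⟩
  refine (key (star a)).congr fun n => ?_
  rw [← norm_star (a * e n - a), star_sub, star_mul, he2]

section

variable {A : Type u} [NonUnitalCStarAlgebra A]

/-- product of an element of the unitization with an element of the algebra -/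
def mulr (b : Unitization ℂ A) (e : A) : A := b.fst • e + b.snd * e

theorem inr_mulr (b : Unitization ℂ A) (e : A) :
    ((mulr b e : A) : Unitization ℂ A) = b * (e : Unitization ℂ A) := by
  refine Unitization.ext ?_ ?_
  · simp [mulr]
  · simp [mulr]

theorem norm_mulr (b : Unitization ℂ A) (e : A) : ‖mulr b e‖ ≤ ‖b‖ * ‖e‖ := by
  rw [← Unitization.norm_inr (𝕜 := ℂ) (mulr b e), inr_mulr]
  refine (norm_mul_le _ _).trans ?_
  rw [Unitization.norm_inr]

/-- the product of a bounded sequence of the unitization and a sequence of contractions -/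
noncomputable def seqR (b : ℕ →ᵇ Unitization ℂ A) (e : ℕ → A) (he : ∀ n, ‖e n‖ ≤ 1) : ℕ →ᵇ A :=
  BoundedContinuousFunction.ofNormedAddCommGroupDiscrete (fun n => mulr (b n) (e n)) ‖b‖ fun n => by
    refine (norm_mulr _ _).trans ?_
    calc ‖b n‖ * ‖e n‖ ≤ ‖b‖ * 1 :=
          mul_le_mul (b.norm_coe_le_norm n) (he n) (norm_nonneg _) (norm_nonneg _)
      _ = ‖b‖ := mul_one _

/-- the sequence `e` in the unitization -/
noncomputable def seqE (e : ℕ → A) (he : ∀ n, ‖e n‖ ≤ 1) : ℕ →ᵇ Unitization ℂ A :=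
  BoundedContinuousFunction.ofNormedAddCommGroupDiscrete (fun n => (e n : Unitization ℂ A)) 1
    fun n => by
      rw [Unitization.norm_inr]
      exact he n

theorem transfer (ω : Ultrafilter ℕ) (s : ℕ → A) (S : ℕ →ᵇ Unitization ℂ A)
    (h : ∀ n, S n = (s n : Unitization ℂ A)) (h0 : cl ω S = 0) :
    Tendsto (fun n => ‖s n‖) ω (𝓝 0) := by
  rw [← cl_zero, cl_eq] at h0
  refine h0.congr fun n => ?_
  rw [h n, BoundedContinuousFunction.coe_zero, Pi.zero_apply, sub_zero, Unitization.norm_inr]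

end


section

variable {A : Type u} [NonUnitalCStarAlgebra A] (ω : Ultrafilter ℕ) (e : ℕ → A)
  (he : ∀ n, ‖e n‖ ≤ 1)

/-- `e a = a` -/
def LU : Prop := ∀ a : A, cl ω (seqE e he) * constSeq ω (a : Unitization ℂ A) =
  constSeq ω (a : Unitization ℂ A)

/-- `a e = a` -/
def RU : Prop := ∀ a : A, constSeq ω (a : Unitization ℂ A) * cl ω (seqE e he) =
  constSeq ω (a : Unitization ℂ A)

theorem hs (b : ℕ →ᵇ Unitization ℂ A) (n : ℕ) : ((seqR b e he n : A) : Unitization ℂ A) =
      b n * (e n : Unitization ℂ A) := inr_mulr _ _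

theorem f_central (hL : LU ω e he) (hR : RU ω e he) (b : ℕ →ᵇ Unitization ℂ A) (a : A)
    (hc : constSeq ω (a : Unitization ℂ A) * cl ω b = cl ω b * constSeq ω (a : Unitization ℂ A)) :
    Tendsto (fun n => ‖seqR b e he n * a - a * seqR b e he n‖) ω (𝓝 0) := by
  refine transfer ω _ ((b * seqE e he) *
      BoundedContinuousFunction.const ℕ (a : Unitization ℂ A) -
      BoundedContinuousFunction.const ℕ (a : Unitization ℂ A) * (b * seqE e he)) ?_ ?_
  · intro n
    rw [Unitization.inr_sub, Unitization.inr_mul, Unitization.inr_mul, hs]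
    rfl
  · change cl ω b * cl ω (seqE e he) * constSeq ω (a : Unitization ℂ A) -
        constSeq ω (a : Unitization ℂ A) * (cl ω b * cl ω (seqE e he)) = 0
    rw [mul_assoc, hL a, ← mul_assoc, hc, mul_assoc, hR a, sub_self]

theorem f_add (hL : LU ω e he) (b₀ b₁ b₂ : ℕ →ᵇ Unitization ℂ A) (a : A)
    (h : cl ω b₀ * constSeq ω (a : Unitization ℂ A) =
      (cl ω b₁ + cl ω b₂) * constSeq ω (a : Unitization ℂ A)) :
    Tendsto (fun n => ‖(seqR b₀ e he n - (seqR b₁ e he n + seqR b₂ e he n)) * a‖) ω (𝓝 0) := by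
  refine transfer ω _ ((b₀ * seqE e he -
      (b₁ * seqE e he + b₂ * seqE e he)) *
      BoundedContinuousFunction.const ℕ (a : Unitization ℂ A)) ?_ ?_
  · intro n
    rw [Unitization.inr_mul, Unitization.inr_sub, Unitization.inr_add, hs, hs, hs]
    rfl
  · change (cl ω b₀ * cl ω (seqE e he) - (cl ω b₁ * cl ω (seqE e he) +
        cl ω b₂ * cl ω (seqE e he))) * constSeq ω (a : Unitization ℂ A) = 0
    rw [← add_mul, sub_mul, mul_assoc, mul_assoc, hL a, h, sub_self]

theorem f_smul (hL : LU ω e he) (c : ℂ) (b₀ b₁ : ℕ →ᵇ Unitization ℂ A) (a : A)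
    (h : cl ω b₀ * constSeq ω (a : Unitization ℂ A) =
      (c • cl ω b₁) * constSeq ω (a : Unitization ℂ A)) :
    Tendsto (fun n => ‖(seqR b₀ e he n - c • seqR b₁ e he n) * a‖) ω (𝓝 0) := by
  refine transfer ω _ ((b₀ * seqE e he - c • (b₁ * seqE e he)) *
      BoundedContinuousFunction.const ℕ (a : Unitization ℂ A)) ?_ ?_
  · intro n
    rw [Unitization.inr_mul, Unitization.inr_sub, Unitization.inr_smul, hs, hs]
    rfl
  · change (cl ω b₀ * cl ω (seqE e he) - c • (cl ω b₁ * cl ω (seqE e he))) *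
        constSeq ω (a : Unitization ℂ A) = 0
    rw [← smul_mul_assoc, sub_mul, mul_assoc, mul_assoc, hL a, h, sub_self]

theorem f_mul (hL : LU ω e he) (b₀ b₁ b₂ : ℕ →ᵇ Unitization ℂ A) (a : A)
    (hc : constSeq ω (a : Unitization ℂ A) * cl ω b₂ = cl ω b₂ * constSeq ω (a : Unitization ℂ A))
    (h : cl ω b₀ * constSeq ω (a : Unitization ℂ A) =
      (cl ω b₁ * cl ω b₂) * constSeq ω (a : Unitization ℂ A)) :
    Tendsto (fun n => ‖(seqR b₀ e he n - seqR b₁ e he n * seqR b₂ e he n) * a‖) ω (𝓝 0) := by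
  refine transfer ω _ ((b₀ * seqE e he -
      (b₁ * seqE e he) * (b₂ * seqE e he)) *
      BoundedContinuousFunction.const ℕ (a : Unitization ℂ A)) ?_ ?_
  · intro n
    rw [Unitization.inr_mul, Unitization.inr_sub, Unitization.inr_mul, hs, hs, hs]
    rfl
  · change (cl ω b₀ * cl ω (seqE e he) - (cl ω b₁ * cl ω (seqE e he)) *
        (cl ω b₂ * cl ω (seqE e he))) * constSeq ω (a : Unitization ℂ A) = 0
    have h3 : (cl ω b₁ * cl ω (seqE e he)) * (cl ω b₂ * cl ω (seqE e he)) *
        constSeq ω (a : Unitization ℂ A) =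
          cl ω b₁ * cl ω b₂ * constSeq ω (a : Unitization ℂ A) := by
      calc (cl ω b₁ * cl ω (seqE e he)) * (cl ω b₂ * cl ω (seqE e he)) *
            constSeq ω (a : Unitization ℂ A)
            = cl ω b₁ * (cl ω (seqE e he) * (cl ω b₂ * (cl ω (seqE e he) *
              constSeq ω (a : Unitization ℂ A)))) := by
              simp only [mul_assoc]
          _ = cl ω b₁ * (cl ω (seqE e he) * (constSeq ω (a : Unitization ℂ A) * cl ω b₂)) := by
              rw [hL a, hc]
          _ = cl ω b₁ * (constSeq ω (a : Unitization ℂ A) * cl ω b₂) := by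
              rw [← mul_assoc (cl ω (seqE e he)), hL a]
          _ = _ := by rw [hc, mul_assoc]
    rw [sub_mul, h3, mul_assoc (cl ω b₀), hL a, h, sub_self]

theorem f_star (hL : LU ω e he) (hes : star (cl ω (seqE e he)) = cl ω (seqE e he))
    (b₀ b₁ : ℕ →ᵇ Unitization ℂ A) (a : A)
    (hc : constSeq ω (a : Unitization ℂ A) * star (cl ω b₁) =
      star (cl ω b₁) * constSeq ω (a : Unitization ℂ A))
    (h : cl ω b₀ * constSeq ω (a : Unitization ℂ A) =
      star (cl ω b₁) * constSeq ω (a : Unitization ℂ A)) :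
    Tendsto (fun n => ‖(seqR b₀ e he n - star (seqR b₁ e he n)) * a‖) ω (𝓝 0) := by
  refine transfer ω _ ((b₀ * seqE e he - star (b₁ * seqE e he)) *
      BoundedContinuousFunction.const ℕ (a : Unitization ℂ A)) ?_ ?_
  · intro n
    rw [Unitization.inr_mul, Unitization.inr_sub, Unitization.inr_star, hs, hs]
    rfl
  · change (cl ω b₀ * cl ω (seqE e he) - star (cl ω b₁ * cl ω (seqE e he))) *
        constSeq ω (a : Unitization ℂ A) = 0
    have e0 : star (cl ω b₁ * cl ω (seqE e he)) = star (cl ω (seqE e he)) * star (cl ω b₁) :=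
      congrArg (cl ω) (star_mul b₁ (seqE e he))
    rw [e0, hes, sub_mul, mul_assoc, mul_assoc, hL a, ← hc, ← mul_assoc, hL a, hc, h, sub_self]

theorem f_one (hL : LU ω e he) (b : ℕ →ᵇ Unitization ℂ A) (a : A)
    (h : cl ω b * constSeq ω (a : Unitization ℂ A) = constSeq ω (a : Unitization ℂ A)) :
    Tendsto (fun n => ‖seqR b e he n * a - a‖) ω (𝓝 0) := by
  refine transfer ω _ ((b * seqE e he) *
      BoundedContinuousFunction.const ℕ (a : Unitization ℂ A) -
      BoundedContinuousFunction.const ℕ (a : Unitization ℂ A)) ?_ ?_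
  · intro n
    rw [Unitization.inr_sub, Unitization.inr_mul, hs]
    rfl
  · change cl ω b * cl ω (seqE e he) * constSeq ω (a : Unitization ℂ A) -
        constSeq ω (a : Unitization ℂ A) = 0
    rw [mul_assoc, hL a, h, sub_self]

theorem f_fixed (hL : LU ω e he) (φ : Unitization ℂ A ≃⋆ₐ[ℂ] Unitization ℂ A)
    (ψ : A ≃⋆ₐ[ℂ] A) (hφ : ∀ a : A, φ (a : Unitization ℂ A) = ((ψ a : A) : Unitization ℂ A))
    (b : ℕ →ᵇ Unitization ℂ A) (a : A)
    (h : ultraMap ω φ (cl ω b) * constSeq ω (a : Unitization ℂ A) =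
      cl ω b * constSeq ω (a : Unitization ℂ A)) :
    Tendsto (fun n => ‖(ψ (seqR b e he n) - seqR b e he n) * a‖) ω (𝓝 0) := by
  refine transfer ω _ ((seqMap φ (b * seqE e he) - b * seqE e he) *
      BoundedContinuousFunction.const ℕ (a : Unitization ℂ A)) ?_ ?_
  · intro n
    rw [Unitization.inr_mul, Unitization.inr_sub, ← hφ, hs]
    rfl
  · change (ultraMap ω φ (cl ω b * cl ω (seqE e he)) - cl ω b * cl ω (seqE e he)) *
        constSeq ω (a : Unitization ℂ A) = 0
    have h4 : constSeq ω (a : Unitization ℂ A) =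
        ultraMap ω φ (constSeq ω ((ψ.symm a : A) : Unitization ℂ A)) := by
      rw [ultraMap_const, hφ]
      congr 2
      exact (ψ.apply_symm_apply a).symm
    have h3 : ultraMap ω φ (cl ω b * cl ω (seqE e he)) * constSeq ω (a : Unitization ℂ A) =
        ultraMap ω φ (cl ω b) * constSeq ω (a : Unitization ℂ A) := by
      rw [h4, ← map_mul, ← map_mul, mul_assoc, hL]
    rw [sub_mul, h3, mul_assoc (cl ω b), hL a, h, sub_self]

end

end Vale.Agent.P095N.OutX

namespace Vale.Agent.P095N

open Vale.Agent.P101 Vale.Agent.P101.UltA Vale.Agent.P095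

universe u v

theorem out : S_OUT.{u, v} := by
  intro A _ _ ω hω G _ _ α Q _ π hπ hker βQ hβ H p q hΦ
  obtain ⟨Φ⟩ := hΦ
  obtain ⟨e, he1, he2, he3, he4⟩ := OutX.exists_au A
  have hωt : (ω : Filter ℕ) ≤ atTop := by rwa [← Nat.cofinite_eq_atTop]
  -- lifts
  have hl : ∀ x : DimDrop p q, ∃ y : FF ω (Unitization ℂ A), π y = (Φ x : Q) := fun x => hπ _
  choose y hy using hl
  have hb' : ∀ x, ∃ b : ℕ →ᵇ Unitization ℂ A,
      cl ω b = (y x : Ultrapower ω (Unitization ℂ A)) := fun x => mk_surj ω _ _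
  choose b hb using hb'
  have hL : OutX.LU ω e he1 := by
    intro a
    refine (cl_eq ω (a := OutX.seqE e he1 * BoundedContinuousFunction.const ℕ
      (a : Unitization ℂ A)) (b := BoundedContinuousFunction.const ℕ (a : Unitization ℂ A))).2 ?_
    refine ((he3 a).mono_left hωt).congr fun n => ?_
    change _ = ‖(e n : Unitization ℂ A) * (a : Unitization ℂ A) - (a : Unitization ℂ A)‖
    rw [← Unitization.inr_mul, ← Unitization.inr_sub, Unitization.norm_inr]
  have hR : OutX.RU ω e he1 := by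
    intro a
    refine (cl_eq ω (a := BoundedContinuousFunction.const ℕ
      (a : Unitization ℂ A) * OutX.seqE e he1)
      (b := BoundedContinuousFunction.const ℕ (a : Unitization ℂ A))).2 ?_
    refine ((he4 a).mono_left hωt).congr fun n => ?_
    change _ = ‖(a : Unitization ℂ A) * (e n : Unitization ℂ A) - (a : Unitization ℂ A)‖
    rw [← Unitization.inr_mul, ← Unitization.inr_sub, Unitization.norm_inr]
  have hEs : star (cl ω (OutX.seqE e he1)) = cl ω (OutX.seqE e he1) := by
    rw [← cl_star]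
    congr 1
    ext1 n
    change star (e n : Unitization ℂ A) = (e n : Unitization ℂ A)
    rw [← Unitization.inr_star, he2]
  have hcom : ∀ x (c : Unitization ℂ A), constSeq ω c * cl ω (b x) = cl ω (b x) * constSeq ω c := by
    intro x c
    rw [hb]
    exact (mem_central' ω).1 (y x).2 c
  have hcoms : ∀ x (c : Unitization ℂ A),
      constSeq ω c * star (cl ω (b x)) = star (cl ω (b x)) * constSeq ω c := by
    intro x c
    rw [hb]
    exact (mem_central' ω).1 (star (y x)).2 c
  have hann : ∀ z w : FF ω (Unitization ℂ A), π z = π w → ∀ a : A,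
      (z : Ultrapower ω (Unitization ℂ A)) * constSeq ω (a : Unitization ℂ A) =
      (w : Ultrapower ω (Unitization ℂ A)) * constSeq ω (a : Unitization ℂ A) := by
    intro z w hz a
    have h0 : π (z - w) = 0 := (map_sub π z w).trans (sub_eq_zero.2 hz)
    have h1 := (hker (z - w)).1 h0 (a : Unitization ℂ A) ⟨a, rfl⟩
    have h2 : ((z : Ultrapower ω (Unitization ℂ A)) - w) * constSeq ω (a : Unitization ℂ A) = 0 :=
      h1
    rw [sub_mul] at h2
    exact sub_eq_zero.1 h2
  refine ⟨fun x => OutX.seqR (b x) e he1, ?_, ?_, ?_, ?_, ?_, ?_, ?_⟩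
  · exact fun x a => OutX.f_central ω e he1 hL hR (b x) a (hcom x a)
  · intro x x' a
    refine OutX.f_add ω e he1 hL (b (x + x')) (b x) (b x') a ?_
    have h1 := hann (y (x + x')) (y x + y x') (by
      rw [map_add π, hy, hy, hy, map_add Φ]
      rfl) a
    rw [hb, hb, hb]
    exact h1
  · intro c x a
    refine OutX.f_smul ω e he1 hL c (b (c • x)) (b x) a ?_
    have h1 := hann (y (c • x)) (c • y x) (by
      rw [map_smul π, hy, hy, map_smul Φ]
      rfl) a
    rw [hb, hb]
    exact h1
  · intro x x' a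
    refine OutX.f_mul ω e he1 hL (b (x * x')) (b x) (b x') a (hcom x' a) ?_
    have h1 := hann (y (x * x')) (y x * y x') (by
      rw [map_mul π, hy, hy, hy, map_mul Φ]
      rfl) a
    rw [hb, hb, hb]
    exact h1
  · intro x a
    refine OutX.f_star ω e he1 hL hEs (b (star x)) (b x) a (hcoms x a) ?_
    have h1 := hann (y (star x)) (star (y x)) (by
      rw [map_star π, hy, hy, map_star Φ]
      rfl) a
    rw [hb, hb]
    exact h1
  · intro a
    refine OutX.f_one ω e he1 hL (b 1) a ?_
    have h1 := hann (y 1) 1 (by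
      rw [map_one π, hy, map_one Φ]
      rfl) a
    rw [hb]
    exact h1.trans (one_mul _)
  · intro g hg x a
    refine OutX.f_fixed ω e he1 hL (uact α g) (α g) (uact_inr α g) (b x) a ?_
    have h1 := hann (act ω (uact α) g (y x)) (y x) (by
      rw [← hβ, hy]
      exact (Φ x).2 ⟨g, hg⟩) a
    rw [hb]
    exact h1

end Vale.Agent.P095N
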