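import Vale.Agent.P095N.StmtC
import Vale.Agent.P095N.Out
import Vale.Agent.P095N.In
import Vale.Agent.P095N.Final

/-!
# P095N: characters
-/

open Filter Topology BoundedContinuousFunction

namespace Vale.Agent.P095N

open Vale.Agent.P101 Vale.Agent.P101.UltA Vale.Agent.P095

universe u v

/-- representatives of a homomorphism from an arbitrary star algebra -/
structure RepG (ω : Ultrafilter ℕ) {A : Type u} [NonUnitalCStarAlgebra A] {G : Type v} [Group G]
    (α : G →* (A ≃⋆ₐ[ℂ] A)) (H : Subgroup G) (D : Type u) [Ring D] [StarRing D] [Algebra ℂ D]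
    (ρ : D → (ℕ →ᵇ A)) : Prop where
  central : ∀ x (a : A), Tendsto (fun n => ‖ρ x n * a - a * ρ x n‖) ω (𝓝 0)
  add : ∀ x y (a : A), Tendsto (fun n => ‖(ρ (x + y) n - (ρ x n + ρ y n)) * a‖) ω (𝓝 0)
  smul : ∀ (c : ℂ) x (a : A), Tendsto (fun n => ‖(ρ (c • x) n - c • ρ x n) * a‖) ω (𝓝 0)
  mul : ∀ x y (a : A), Tendsto (fun n => ‖(ρ (x * y) n - ρ x n * ρ y n) * a‖) ω (𝓝 0)
  star : ∀ x (a : A), Tendsto (fun n => ‖(ρ (star x) n - star (ρ x n)) * a‖) ω (𝓝 0)
  one : ∀ a : A, Tendsto (fun n => ‖ρ 1 n * a - a‖) ω (𝓝 0)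
  fixed : ∀ g ∈ H, ∀ x (a : A), Tendsto (fun n => ‖(α g (ρ x n) - ρ x n) * a‖) ω (𝓝 0)

theorem outG {A : Type u} [NonUnitalCStarAlgebra A] [TopologicalSpace.SeparableSpace A]
    {ω : Ultrafilter ℕ} (hω : (ω : Filter ℕ) ≤ Filter.cofinite) {G : Type v} [Group G]
    [Countable G] {α : G →* (A ≃⋆ₐ[ℂ] A)} {Q : Type u} [CStarAlgebra Q]
    {π : FF ω (Unitization ℂ A) →⋆ₐ[ℂ] Q} {βQ : G →* (Q ≃⋆ₐ[ℂ] Q)}
    (DD : QData ω A α Q π βQ) (H : Subgroup G) (D : Type u) [Ring D] [StarRing D] [Algebra ℂ D]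
    (Φ : D →⋆ₐ[ℂ] fixAlg Q (fun g : H => βQ g)) :
    ∃ ρ : D → (ℕ →ᵇ A), RepG ω α H D ρ := by
  have hπ := DD.surj
  have hker := DD.ker
  have hβ := DD.equi
  obtain ⟨e, he1, he2, he3, he4⟩ := OutX.exists_au A
  have hωt : (ω : Filter ℕ) ≤ atTop := by rwa [← Nat.cofinite_eq_atTop]
  -- lifts
  have hl : ∀ x : D, ∃ y : FF ω (Unitization ℂ A), π y = (Φ x : Q) := fun x => hπ _
  choose y hy using hl
  have hb' : ∀ x, ∃ b : ℕ →ᵇ Unitization ℂ A,
      cl ω b = (y x : Ultrapower ω (Unitization ℂ A)) := fun x => mk_surj ω _ _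
  choose b hb using hb'
  have hL : OutX.LU ω e he1 := by
    intro a
    refine (cl_eq ω (a := OutX.seqE e he1 * BoundedContinuousFunction.const ℕ
      (a : Unitization ℂ A)) (b := BoundedContinuousFunction.const ℕ (a : Unitization ℂ A))).2 ?_
    refine ((he3 a).mono_left hωt).congr fun n => ?_
    change _ = ‖(e n : Unitization ℂ A) * (a : Unitization ℂ A) - (a : Unitization ℂ A)‖
    rw [← Unitization.inr_mul, ← Unitization.inr_sub, Unitization.norm_inr]
  have hR : OutX.RU ω e he1 := by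
    intro a
    refine (cl_eq ω (a := BoundedContinuousFunction.const ℕ
      (a : Unitization ℂ A) * OutX.seqE e he1)
      (b := BoundedContinuousFunction.const ℕ (a : Unitization ℂ A))).2 ?_
    refine ((he4 a).mono_left hωt).congr fun n => ?_
    change _ = ‖(a : Unitization ℂ A) * (e n : Unitization ℂ A) - (a : Unitization ℂ A)‖
    rw [← Unitization.inr_mul, ← Unitization.inr_sub, Unitization.norm_inr]
  have hEs : star (cl ω (OutX.seqE e he1)) = cl ω (OutX.seqE e he1) := by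
    rw [← cl_star]
    congr 1
    ext1 n
    change star (e n : Unitization ℂ A) = (e n : Unitization ℂ A)
    rw [← Unitization.inr_star, he2]
  have hcom : ∀ x (c : Unitization ℂ A), constSeq ω c * cl ω (b x) = cl ω (b x) * constSeq ω c := by
    intro x c
    rw [hb]
    exact (mem_central' ω).1 (y x).2 c
  have hcoms : ∀ x (c : Unitization ℂ A),
      constSeq ω c * star (cl ω (b x)) = star (cl ω (b x)) * constSeq ω c := by
    intro x c
    rw [hb]
    exact (mem_central' ω).1 (star (y x)).2 c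
  have hann : ∀ z w : FF ω (Unitization ℂ A), π z = π w → ∀ a : A,
      (z : Ultrapower ω (Unitization ℂ A)) * constSeq ω (a : Unitization ℂ A) =
      (w : Ultrapower ω (Unitization ℂ A)) * constSeq ω (a : Unitization ℂ A) := by
    intro z w hz a
    have h0 : π (z - w) = 0 := (map_sub π z w).trans (sub_eq_zero.2 hz)
    have h1 := (hker (z - w)).1 h0 (a : Unitization ℂ A) ⟨a, rfl⟩
    have h2 : ((z : Ultrapower ω (Unitization ℂ A)) - w) * constSeq ω (a : Unitization ℂ A) = 0 :=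
      h1
    rw [sub_mul] at h2
    exact sub_eq_zero.1 h2
  refine ⟨fun x => OutX.seqR (b x) e he1, ?_, ?_, ?_, ?_, ?_, ?_, ?_⟩
  · exact fun x a => OutX.f_central ω e he1 hL hR (b x) a (hcom x a)
  · intro x x' a
    refine OutX.f_add ω e he1 hL (b (x + x')) (b x) (b x') a ?_
    have h1 := hann (y (x + x')) (y x + y x') (by
      rw [map_add π, hy, hy, hy, map_add Φ]
      rfl) a
    rw [hb, hb, hb]
    exact h1
  · intro c x a
    refine OutX.f_smul ω e he1 hL c (b (c • x)) (b x) a ?_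
    have h1 := hann (y (c • x)) (c • y x) (by
      rw [map_smul π, hy, hy, map_smul Φ]
      rfl) a
    rw [hb, hb]
    exact h1
  · intro x x' a
    refine OutX.f_mul ω e he1 hL (b (x * x')) (b x) (b x') a (hcom x' a) ?_
    have h1 := hann (y (x * x')) (y x * y x') (by
      rw [map_mul π, hy, hy, hy, map_mul Φ]
      rfl) a
    rw [hb, hb, hb]
    exact h1
  · intro x a
    refine OutX.f_star ω e he1 hL hEs (b (star x)) (b x) a (hcoms x a) ?_
    have h1 := hann (y (star x)) (star (y x)) (by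
      rw [map_star π, hy, hy, map_star Φ]
      rfl) a
    rw [hb, hb]
    exact h1
  · intro a
    refine OutX.f_one ω e he1 hL (b 1) a ?_
    have h1 := hann (y 1) 1 (by
      rw [map_one π, hy, map_one Φ]
      rfl) a
    rw [hb]
    exact h1.trans (one_mul _)
  · intro g hg x a
    refine OutX.f_fixed ω e he1 hL (uact α g) (α g) (uact_inr α g) (b x) a ?_
    have h1 := hann (act ω (uact α) g (y x)) (y x) (by
      rw [← hβ, hy]
      exact (Φ x).2 ⟨g, hg⟩) a
    rw [hb]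
    exact h1


section

open In

variable {ω : Ultrafilter ℕ} {A : Type u} [NonUnitalCStarAlgebra A]
  [TopologicalSpace.SeparableSpace A] {G : Type v} [Group G] [Countable G]
  {α : G →* (A ≃⋆ₐ[ℂ] A)} {Q : Type u} [CStarAlgebra Q]
  {π : FF ω (Unitization ℂ A) →⋆ₐ[ℂ] Q} {βQ : G →* (Q ≃⋆ₐ[ℂ] Q)}

omit [TopologicalSpace.SeparableSpace A] [Countable G] in
lemma QData.sub (_D : QData ω A α Q π βQ) (x y : FF ω (Unitization ℂ A)) :
    π (x - y) = π x - π y := by
  rw [eq_sub_iff_add_eq, ← map_add]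
  exact congrArg π (sub_add_cancel x y)

omit [TopologicalSpace.SeparableSpace A] [Countable G] in
lemma QData.key (D : QData ω A α Q π βQ) (w : ℕ →ᵇ Unitization ℂ A)
    (W : FF ω (Unitization ℂ A)) (hw : cl ω w = (W : Ultrapower ω (Unitization ℂ A)))
    (h : ∀ a : A, Tendsto (fun n => ‖w n * (a : Unitization ℂ A)‖) ω (𝓝 0)) : π W = 0 := by
  rw [D.ker]
  rintro _ ⟨a, rfl⟩
  rw [← hw]
  change cl ω (w * BoundedContinuousFunction.const ℕ (a : Unitization ℂ A)) = cl ω 0
  refine (cl_eq ω).2 ?_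
  refine (h a).congr fun n => ?_
  change _ = ‖w n * (a : Unitization ℂ A) - 0‖
  rw [sub_zero]

/-- the element of the quotient represented by a sequence -/
noncomputable def PQ (π : FF ω (Unitization ℂ A) →⋆ₐ[ℂ] Q) (z : ℕ →ᵇ A)
    (hz : cl ω (up z) ∈ CentralSeq ω (Unitization ℂ A)) : Q := π ⟨cl ω (up z), hz⟩

omit [TopologicalSpace.SeparableSpace A] [Countable G] in
lemma QData.congr (D : QData ω A α Q π βQ) (z w : ℕ →ᵇ A)
    (hz : cl ω (up z) ∈ CentralSeq ω (Unitization ℂ A))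
    (hw : cl ω (up w) ∈ CentralSeq ω (Unitization ℂ A))
    (h : ∀ a : A, Tendsto (fun n => ‖(z n - w n) * a‖) ω (𝓝 0)) : PQ π z hz = PQ π w hw := by
  unfold PQ
  rw [← sub_eq_zero, ← D.sub]
  refine D.key (up z - up w) _ rfl fun a => ?_
  refine (h a).congr fun n => ?_
  change _ = ‖(((z n : A) : Unitization ℂ A) - ((w n : A) : Unitization ℂ A))
    * (a : Unitization ℂ A)‖
  rw [← Unitization.inr_sub, ← Unitization.inr_mul, Unitization.norm_inr]

omit [TopologicalSpace.SeparableSpace A] [Countable G] in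
lemma QData.rep_iff (D : QData ω A α Q π βQ) (H : Subgroup G) (z : ℕ →ᵇ A) :
    z ∈ RepSeq ω α H ↔ ∃ hz : cl ω (up z) ∈ CentralSeq ω (Unitization ℂ A),
      ∀ g ∈ H, βQ g (PQ π z hz) = PQ π z hz := by
  constructor
  · rintro ⟨h1, h2⟩
    refine ⟨up_central ω z h1, fun g hg => ?_⟩
    unfold PQ
    rw [D.equi, ← sub_eq_zero, ← D.sub]
    refine D.key (seqMap (uact α g) (up z) - up z) _ rfl fun a => ?_
    refine (h2 g hg a).congr fun n => ?_
    change _ = ‖(uact α g ((z n : A) : Unitization ℂ A) - ((z n : A) : Unitization ℂ A))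
      * (a : Unitization ℂ A)‖
    rw [uact_inr, ← Unitization.inr_sub, ← Unitization.inr_mul, Unitization.norm_inr]
  · rintro ⟨hz, h⟩
    refine ⟨fun a => ?_, fun g hg a => ?_⟩
    · have h1 := (mem_central' ω).1 hz (a : Unitization ℂ A)
      have h2 : cl ω (up z * BoundedContinuousFunction.const ℕ (a : Unitization ℂ A))
        = cl ω (BoundedContinuousFunction.const ℕ (a : Unitization ℂ A) * up z) := h1.symm
      refine ((cl_eq ω).1 h2).congr fun n => ?_
      change ‖((z n : A) : Unitization ℂ A) * (a : Unitization ℂ A)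
        - (a : Unitization ℂ A) * ((z n : A) : Unitization ℂ A)‖ = _
      rw [← Unitization.inr_mul, ← Unitization.inr_mul, ← Unitization.inr_sub,
        Unitization.norm_inr]
    · have h1 := h g hg
      unfold PQ at h1
      rw [D.equi, ← sub_eq_zero, ← D.sub, D.ker] at h1
      have h2 := h1 (a : Unitization ℂ A) ⟨a, rfl⟩
      have h3 : cl ω ((seqMap (uact α g) (up z) - up z)
        * BoundedContinuousFunction.const ℕ (a : Unitization ℂ A)) = cl ω 0 := h2
      refine ((cl_eq ω).1 h3).congr fun n => ?_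
      change ‖(uact α g ((z n : A) : Unitization ℂ A) - ((z n : A) : Unitization ℂ A))
        * (a : Unitization ℂ A) - 0‖ = _
      rw [sub_zero, uact_inr, ← Unitization.inr_sub, ← Unitization.inr_mul,
        Unitization.norm_inr]

omit [TopologicalSpace.SeparableSpace A] in
lemma up_add (z w : ℕ →ᵇ A) : up (z + w) = up z + up w :=
  BoundedContinuousFunction.ext fun n => Unitization.inr_add ℂ (z n) (w n)

omit [TopologicalSpace.SeparableSpace A] in
lemma up_mul (z w : ℕ →ᵇ A) : up (z * w) = up z * up w :=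
  BoundedContinuousFunction.ext fun n => Unitization.inr_mul ℂ (z n) (w n)

omit [TopologicalSpace.SeparableSpace A] in
lemma up_smul (c : ℂ) (z : ℕ →ᵇ A) : up (c • z) = c • up z :=
  BoundedContinuousFunction.ext fun n => Unitization.inr_smul ℂ c (z n)

omit [TopologicalSpace.SeparableSpace A] in
lemma up_star (z : ℕ →ᵇ A) : up (star z) = star (up z) :=
  BoundedContinuousFunction.ext fun n => Unitization.inr_star (z n)

omit [TopologicalSpace.SeparableSpace A] [Countable G] in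
lemma QData.rep_add (D : QData ω A α Q π βQ) {H : Subgroup G} {z w : ℕ →ᵇ A}
    (hz : z ∈ RepSeq ω α H) (hw : w ∈ RepSeq ω α H) : z + w ∈ RepSeq ω α H := by
  obtain ⟨z1, z2⟩ := (D.rep_iff H z).1 hz
  obtain ⟨w1, w2⟩ := (D.rep_iff H w).1 hw
  have h1 : cl ω (up (z + w)) ∈ CentralSeq ω (Unitization ℂ A) := by
    rw [up_add]; exact add_mem z1 w1
  refine (D.rep_iff H _).2 ⟨h1, fun g hg => ?_⟩
  have h2 : PQ π (z + w) h1 = PQ π z z1 + PQ π w w1 := by
    unfold PQ
    rw [← map_add]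
    exact congrArg π (Subtype.ext (congrArg (cl ω) (up_add z w)))
  rw [h2, map_add, z2 g hg, w2 g hg]

omit [TopologicalSpace.SeparableSpace A] [Countable G] in
lemma QData.rep_mul (D : QData ω A α Q π βQ) {H : Subgroup G} {z w : ℕ →ᵇ A}
    (hz : z ∈ RepSeq ω α H) (hw : w ∈ RepSeq ω α H) : z * w ∈ RepSeq ω α H := by
  obtain ⟨z1, z2⟩ := (D.rep_iff H z).1 hz
  obtain ⟨w1, w2⟩ := (D.rep_iff H w).1 hw
  have h1 : cl ω (up (z * w)) ∈ CentralSeq ω (Unitization ℂ A) := by
    rw [up_mul]; exact mul_mem z1 w1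
  refine (D.rep_iff H _).2 ⟨h1, fun g hg => ?_⟩
  have h2 : PQ π (z * w) h1 = PQ π z z1 * PQ π w w1 := by
    unfold PQ
    rw [← map_mul]
    exact congrArg π (Subtype.ext (congrArg (cl ω) (up_mul z w)))
  rw [h2, map_mul, z2 g hg, w2 g hg]

omit [TopologicalSpace.SeparableSpace A] [Countable G] in
lemma QData.rep_smul (D : QData ω A α Q π βQ) {H : Subgroup G} (c : ℂ) {z : ℕ →ᵇ A}
    (hz : z ∈ RepSeq ω α H) : c • z ∈ RepSeq ω α H := by
  obtain ⟨z1, z2⟩ := (D.rep_iff H z).1 hz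
  have h1 : cl ω (up (c • z)) ∈ CentralSeq ω (Unitization ℂ A) := by
    rw [up_smul]; exact SMulMemClass.smul_mem c z1
  refine (D.rep_iff H _).2 ⟨h1, fun g hg => ?_⟩
  have h2 : PQ π (c • z) h1 = c • PQ π z z1 := by
    unfold PQ
    rw [← map_smul]
    exact congrArg π (Subtype.ext (congrArg (cl ω) (up_smul c z)))
  rw [h2, map_smul, z2 g hg]

omit [TopologicalSpace.SeparableSpace A] [Countable G] in
lemma QData.rep_star (D : QData ω A α Q π βQ) {H : Subgroup G} {z : ℕ →ᵇ A}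
    (hz : z ∈ RepSeq ω α H) : star z ∈ RepSeq ω α H := by
  obtain ⟨z1, z2⟩ := (D.rep_iff H z).1 hz
  have h1 : cl ω (up (star z)) ∈ CentralSeq ω (Unitization ℂ A) := by
    rw [up_star]; exact star_mem z1
  refine (D.rep_iff H _).2 ⟨h1, fun g hg => ?_⟩
  have h2 : PQ π (star z) h1 = star (PQ π z z1) := by
    unfold PQ
    rw [← map_star]
    exact congrArg π (Subtype.ext (congrArg (cl ω) (up_star z)))
  rw [h2, map_star, z2 g hg]

/-- from a character of the quotient to a character on sequences -/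
theorem QData.char_of_hom (hω : (ω : Filter ℕ) ≤ Filter.cofinite) (D : QData ω A α Q π βQ)
    (H : Subgroup G) (ψ : fixAlg Q (fun g : H => βQ g) →⋆ₐ[ℂ] ℂ) :
    ∃ χ : (ℕ →ᵇ A) → ℂ, IsCharacter ω α H χ := by
  classical
  obtain ⟨ρ, hρ⟩ := outG hω D H (fixAlg Q (fun g : H => βQ g)) (StarAlgHom.id ℂ _)
  let χ : (ℕ →ᵇ A) → ℂ := fun z => if h : z ∈ RepSeq ω α H then
    ψ ⟨PQ π z ((D.rep_iff H z).1 h).choose, fun g =>
      ((D.rep_iff H z).1 h).choose_spec g g.2⟩ else 0
  have hχ : ∀ (z : ℕ →ᵇ A) (h : z ∈ RepSeq ω α H)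
      (hz : cl ω (up z) ∈ CentralSeq ω (Unitization ℂ A))
      (hf : PQ π z hz ∈ fixAlg Q (fun g : H => βQ g)), χ z = ψ ⟨PQ π z hz, hf⟩ := by
    intro z h hz hf
    exact dif_pos h
  have hmem : ∀ z ∈ RepSeq ω α H, ∃ hz : cl ω (up z) ∈ CentralSeq ω (Unitization ℂ A),
      PQ π z hz ∈ fixAlg Q (fun g : H => βQ g) := by
    intro z h
    obtain ⟨h1, h2⟩ := (D.rep_iff H z).1 h
    exact ⟨h1, fun g => h2 g g.2⟩
  refine ⟨χ, ?_, ?_, ?_, ?_, ?_, ?_⟩
  · intro z hz w hw h
    obtain ⟨z1, z2⟩ := hmem z hz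
    obtain ⟨w1, w2⟩ := hmem w hw
    rw [hχ z hz z1 z2, hχ w hw w1 w2]
    exact congrArg ψ (Subtype.ext (D.congr z w z1 w1 h))
  · intro z hz w hw
    obtain ⟨z1, z2⟩ := hmem z hz
    obtain ⟨w1, w2⟩ := hmem w hw
    obtain ⟨s1, s2⟩ := hmem _ (D.rep_add hz hw)
    rw [hχ z hz z1 z2, hχ w hw w1 w2, hχ _ (D.rep_add hz hw) s1 s2, ← map_add]
    refine congrArg ψ (Subtype.ext ?_)
    change PQ π (z + w) s1 = PQ π z z1 + PQ π w w1
    unfold PQ
    rw [← map_add]
    exact congrArg π (Subtype.ext (congrArg (cl ω) (up_add z w)))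
  · intro c z hz
    obtain ⟨z1, z2⟩ := hmem z hz
    obtain ⟨s1, s2⟩ := hmem _ (D.rep_smul c hz)
    rw [hχ z hz z1 z2, hχ _ (D.rep_smul c hz) s1 s2, ← smul_eq_mul, ← map_smul]
    refine congrArg ψ (Subtype.ext ?_)
    change PQ π (c • z) s1 = c • PQ π z z1
    unfold PQ
    rw [← map_smul]
    exact congrArg π (Subtype.ext (congrArg (cl ω) (up_smul c z)))
  · intro z hz w hw
    obtain ⟨z1, z2⟩ := hmem z hz
    obtain ⟨w1, w2⟩ := hmem w hw
    obtain ⟨s1, s2⟩ := hmem _ (D.rep_mul hz hw)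
    rw [hχ z hz z1 z2, hχ w hw w1 w2, hχ _ (D.rep_mul hz hw) s1 s2, ← map_mul]
    refine congrArg ψ (Subtype.ext ?_)
    change PQ π (z * w) s1 = PQ π z z1 * PQ π w w1
    unfold PQ
    rw [← map_mul]
    exact congrArg π (Subtype.ext (congrArg (cl ω) (up_mul z w)))
  · intro z hz
    obtain ⟨z1, z2⟩ := hmem z hz
    obtain ⟨s1, s2⟩ := hmem _ (D.rep_star hz)
    rw [hχ z hz z1 z2, hχ _ (D.rep_star hz) s1 s2, ← map_star]
    refine congrArg ψ (Subtype.ext ?_)
    change PQ π (star z) s1 = star (PQ π z z1)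
    unfold PQ
    rw [← map_star]
    exact congrArg π (Subtype.ext (congrArg (cl ω) (up_star z)))
  · have h1 : ρ 1 ∈ RepSeq ω α H := ⟨hρ.central 1, fun g hg a => hρ.fixed g hg 1 a⟩
    refine ⟨ρ 1, h1, ?_⟩
    obtain ⟨z1, z2⟩ := hmem _ h1
    rw [hχ _ h1 z1 z2]
    have h2 : PQ π (ρ 1) z1 = 1 := by
      unfold PQ
      rw [← map_one π, ← sub_eq_zero, ← D.sub]
      refine D.key (up (ρ 1) - 1) _ rfl fun a => ?_
      refine (hρ.one a).congr fun n => ?_
      change _ = ‖(((ρ 1 n : A) : Unitization ℂ A) - 1) * (a : Unitization ℂ A)‖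
      rw [sub_mul, one_mul, ← Unitization.inr_mul, ← Unitization.inr_sub, Unitization.norm_inr]
    have h3 : (⟨PQ π (ρ 1) z1, z2⟩ : fixAlg Q (fun g : H => βQ g)) = 1 := Subtype.ext h2
    rw [h3, map_one]
    exact one_ne_zero

/-- from a character on sequences to a character of the quotient -/
theorem QData.hom_of_char (hω : (ω : Filter ℕ) ≤ Filter.cofinite) (D : QData ω A α Q π βQ)
    (H : Subgroup G) (χ : (ℕ →ᵇ A) → ℂ) (hχ : IsCharacter ω α H χ) :
    Nonempty (fixAlg Q (fun g : H => βQ g) →⋆ₐ[ℂ] ℂ) := by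
  obtain ⟨ρ, hρ⟩ := outG hω D H (fixAlg Q (fun g : H => βQ g)) (StarAlgHom.id ℂ _)
  have hm : ∀ x, ρ x ∈ RepSeq ω α H := fun x =>
    ⟨hρ.central x, fun g hg a => hρ.fixed g hg x a⟩
  have hadd : ∀ x y, χ (ρ (x + y)) = χ (ρ x) + χ (ρ y) := by
    intro x y
    rw [← hχ.add _ (hm x) _ (hm y)]
    exact hχ.congr _ (hm _) _ (D.rep_add (hm x) (hm y)) (hρ.add x y)
  have hsmul : ∀ (c : ℂ) x, χ (ρ (c • x)) = c * χ (ρ x) := by
    intro c x
    rw [← hχ.smul c _ (hm x)]
    exact hχ.congr _ (hm _) _ (D.rep_smul c (hm x)) (hρ.smul c x)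
  have hmul : ∀ x y, χ (ρ (x * y)) = χ (ρ x) * χ (ρ y) := by
    intro x y
    rw [← hχ.mul _ (hm x) _ (hm y)]
    exact hχ.congr _ (hm _) _ (D.rep_mul (hm x) (hm y)) (hρ.mul x y)
  have hstar : ∀ x, χ (ρ (star x)) = star (χ (ρ x)) := by
    intro x
    rw [← hχ.star _ (hm x)]
    exact hχ.congr _ (hm _) _ (D.rep_star (hm x)) (hρ.star x)
  have hone : χ (ρ 1) = 1 := by
    obtain ⟨z, hz, hz0⟩ := hχ.ne_zero
    have h1 : χ (z * ρ 1) = χ z := by
      refine hχ.congr _ (D.rep_mul hz (hm 1)) _ hz fun a => ?_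
      have h2 : Tendsto (fun n => ‖z‖ * ‖ρ 1 n * a - a‖) ω (𝓝 0) := by
        simpa using (hρ.one a).const_mul ‖z‖
      refine squeeze_zero (fun n => norm_nonneg _) (fun n => ?_) h2
      have h3 : ((z * ρ 1) n - z n) * a = z n * (ρ 1 n * a - a) := by
        change (z n * ρ 1 n - z n) * a = _
        rw [sub_mul, mul_sub, mul_assoc]
      rw [h3]
      exact (norm_mul_le _ _).trans (mul_le_mul_of_nonneg_right (z.norm_coe_le_norm n)
        (norm_nonneg _))
    rw [hχ.mul _ hz _ (hm 1)] at h1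
    exact mul_left_cancel₀ hz0 (h1.trans (mul_one _).symm)
  exact ⟨{ toFun := fun x => χ (ρ x)
           map_one' := hone
           map_mul' := hmul
           map_zero' := by
             have h1 := hsmul 0 0
             rw [zero_smul, zero_mul] at h1
             exact h1
           map_add' := hadd
           commutes' := fun c => by
             rw [Algebra.algebraMap_eq_smul_one, hsmul, hone, mul_one]
             rfl
           map_star' := hstar }⟩

theorem QData.char_iff (hω : (ω : Filter ℕ) ≤ Filter.cofinite) (D : QData ω A α Q π βQ)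
    (H : Subgroup G) :
    CharacterFree ω α H ↔ IsEmpty (fixAlg Q (fun g : H => βQ g) →⋆ₐ[ℂ] ℂ) := by
  constructor
  · intro h
    refine ⟨fun ψ => ?_⟩
    obtain ⟨χ, hχ⟩ := D.char_of_hom hω H ψ
    exact h χ hχ
  · intro h χ hχ
    obtain ⟨ψ⟩ := D.hom_of_char hω H χ hχ
    exact h.false ψ

end

/-- characters and dimension drop algebras -/
theorem characterFree_iff (hquot : S_QUOT.{u}) (hqself : S_QSELF.{u, v}) (hin : S_IN.{u, v})
    (hout : S_OUT.{u, v}) (ω : Ultrafilter ℕ) (hω : (ω : Filter ℕ) ≤ Filter.cofinite) {A : Type u}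
    [NonUnitalCStarAlgebra A] [TopologicalSpace.SeparableSpace A] {G : Type v} [Group G]
    [Countable G] (α : G →* (A ≃⋆ₐ[ℂ] A)) (H : Subgroup G) :
    CharacterFree ω α H ↔ DimDropsMap ω α H := by
  obtain ⟨Q, _, π, βQ, D⟩ := exists_Q hquot ω A α
  rw [D.iff hqself hin hout hω, D.char_iff hω]

end Vale.Agent.P095N
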