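import Vale.Agent.P095N.Stmt
import Vale.Agent.P095.Final

/-!
# P095N: module statements for the non-unital case
-/

open Filter Topology BoundedContinuousFunction

namespace Vale.Agent.P095N

open Vale.Agent.P101 Vale.Agent.P101.UltA Vale.Agent.P095

universe u v

/-- quotients of C*-algebras -/
def S_QUOT : Prop := ∀ (F : Type u) [CStarAlgebra F] (I : Set F), IsClosed I → (0 : F) ∈ I →
  (∀ x ∈ I, ∀ y ∈ I, x + y ∈ I) → (∀ x ∈ I, ∀ y : F, x * y ∈ I ∧ y * x ∈ I) →
  (∀ x ∈ I, star x ∈ I) → ∃ (Q : Type u) (_ : CStarAlgebra Q) (π : F →⋆ₐ[ℂ] Q),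
    Function.Surjective π ∧ (∀ x, π x = 0 ↔ x ∈ I) ∧
      ∀ (q : Q) (ε : ℝ), 0 < ε → ∃ x, π x = q ∧ ‖x‖ < ‖q‖ + ε

/-- the annihilator of a set `J` of constants in the central sequence algebra -/
def Ann (ω : Ultrafilter ℕ) {B : Type u} [CStarAlgebra B] (J : Set B) : Set (FF ω B) :=
  {x | ∀ a ∈ J, (x : Ultrapower ω B) * constSeq ω a = 0}

/-- the quotient by the annihilator has equivariant commuting copies -/
def S_QSELF : Prop := ∀ (B : Type u) [CStarAlgebra B] [TopologicalSpace.SeparableSpace B]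
  (ω : Ultrafilter ℕ), (ω : Filter ℕ) ≤ Filter.cofinite → ∀ (G : Type v) [Group G] [Countable G]
  (α : G →* (B ≃⋆ₐ[ℂ] B)) (J : Set B), (∀ g, ∀ a ∈ J, α g a ∈ J) →
  ∀ (Q : Type u) [CStarAlgebra Q] (π : FF ω B →⋆ₐ[ℂ] Q), Function.Surjective π →
  (∀ x, π x = 0 ↔ x ∈ Ann ω J) → ∀ (βQ : G →* (Q ≃⋆ₐ[ℂ] Q)),
  (∀ g x, βQ g (π x) = π (act ω α g x)) → EqSelfComm Q (fun g => βQ g)

/-- directed unions of groups, for the quotient by the annihilator -/
def S_LOC : Prop := ∀ (B : Type u) [CStarAlgebra B] [TopologicalSpace.SeparableSpace B]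
  (ω : Ultrafilter ℕ), (ω : Filter ℕ) ≤ Filter.cofinite → ∀ (G : Type v) [Group G] [Countable G]
  (α : G →* (B ≃⋆ₐ[ℂ] B)) (J : Set B), (∀ g, ∀ a ∈ J, α g a ∈ J) →
  ∀ (Q : Type u) [CStarAlgebra Q] (π : FF ω B →⋆ₐ[ℂ] Q), Function.Surjective π →
  (∀ x, π x = 0 ↔ x ∈ Ann ω J) →
  (∀ (q : Q) (ε : ℝ), 0 < ε → ∃ x : FF ω B, π x = q ∧ nrm ω (x : Ultrapower ω B) < ‖q‖ + ε) →
  ∀ (βQ : G →* (Q ≃⋆ₐ[ℂ] Q)), (∀ g x, βQ g (π x) = π (act ω α g x)) →
  (∀ s : Finset G, ∃ K : Subgroup G, (s : Set G) ⊆ K ∧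
    IsEmpty (fixAlg Q (fun g : K => βQ g) →⋆ₐ[ℂ] ℂ)) →
  IsEmpty (fixAlg Q (fun g => βQ g) →⋆ₐ[ℂ] ℂ)

/-- the extension of an action to the unitization -/
noncomputable def uact {A : Type u} [NonUnitalCStarAlgebra A] {G : Type v} [Group G]
    (α : G →* (A ≃⋆ₐ[ℂ] A)) : G →* (Unitization ℂ A ≃⋆ₐ[ℂ] Unitization ℂ A) where
  toFun g :=
    { toFun := fun x => Unitization.starMap ((α g : A →⋆ₙₐ[ℂ] A)) x
      invFun := fun x => Unitization.starMap ((α g⁻¹ : A →⋆ₙₐ[ℂ] A)) x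
      left_inv := fun x => by
        induction x with
        | inl_add_inr r a =>
          simp only [map_add, Unitization.starMap_inl, Unitization.starMap_inr, AlgHomClass.commutes]
          congr 2
          change α g⁻¹ (α g a) = a
          rw [← StarAlgEquiv.mul_apply, ← map_mul, inv_mul_cancel, map_one, StarAlgEquiv.one_apply]
      right_inv := fun x => by
        induction x with
        | inl_add_inr r a =>
          simp only [map_add, Unitization.starMap_inl, Unitization.starMap_inr, AlgHomClass.commutes]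
          congr 2
          change α g (α g⁻¹ a) = a
          rw [← StarAlgEquiv.mul_apply, ← map_mul, mul_inv_cancel, map_one, StarAlgEquiv.one_apply]
      map_mul' := fun x y => map_mul _ _ _
      map_add' := fun x y => map_add _ _ _
      map_star' := fun x => map_star _ _
      map_smul' := fun c x => map_smul _ _ _ }
  map_one' := by
    refine StarAlgEquiv.ext fun x => ?_
    change Unitization.starMap ((α 1 : A →⋆ₙₐ[ℂ] A)) x = x
    induction x with
    | inl_add_inr r a =>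
      simp only [map_add, Unitization.starMap_inl, Unitization.starMap_inr]
      congr 2
      change α 1 a = a
      rw [map_one, StarAlgEquiv.one_apply]
  map_mul' g h := by
    refine StarAlgEquiv.ext fun x => ?_
    change Unitization.starMap ((α (g * h) : A →⋆ₙₐ[ℂ] A)) x =
      Unitization.starMap ((α g : A →⋆ₙₐ[ℂ] A)) (Unitization.starMap ((α h : A →⋆ₙₐ[ℂ] A)) x)
    induction x with
    | inl_add_inr r a =>
      simp only [map_add, Unitization.starMap_inl, Unitization.starMap_inr, AlgHomClass.commutes]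
      congr 2
      change α (g * h) a = α g (α h a)
      rw [map_mul, StarAlgEquiv.mul_apply]

theorem uact_inr {A : Type u} [NonUnitalCStarAlgebra A] {G : Type v} [Group G]
    (α : G →* (A ≃⋆ₐ[ℂ] A)) (g : G) (a : A) :
    uact α g (a : Unitization ℂ A) = ((α g a : A) : Unitization ℂ A) :=
  Unitization.starMap_inr _ a

instance uSep {A : Type u} [NonUnitalCStarAlgebra A] [TopologicalSpace.SeparableSpace A] :
    TopologicalSpace.SeparableSpace (Unitization ℂ A) :=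
  (Unitization.uniformEquivProd (𝕜 := ℂ) (A := A)).symm.surjective.denseRange.separableSpace
    (Unitization.uniformEquivProd (𝕜 := ℂ) (A := A)).symm.continuous

/-- from representatives to the quotient -/
def S_IN : Prop := ∀ (A : Type u) [NonUnitalCStarAlgebra A] [TopologicalSpace.SeparableSpace A]
  (ω : Ultrafilter ℕ), (ω : Filter ℕ) ≤ Filter.cofinite → ∀ (G : Type v) [Group G] [Countable G]
  (α : G →* (A ≃⋆ₐ[ℂ] A)) (Q : Type u) [CStarAlgebra Q]
  (π : FF ω (Unitization ℂ A) →⋆ₐ[ℂ] Q), Function.Surjective π →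
  (∀ x, π x = 0 ↔ x ∈ Ann ω (Set.range (fun a : A => (a : Unitization ℂ A)))) →
  ∀ (βQ : G →* (Q ≃⋆ₐ[ℂ] Q)), (∀ g x, βQ g (π x) = π (act ω (uact α) g x)) →
  ∀ (H : Subgroup G) (p q : ℕ) (ρ : DimDrop p q → (ℕ →ᵇ A)), Induces ω α H p q ρ →
  Nonempty (DimDrop p q →⋆ₐ[ℂ] fixAlg Q (fun g : H => βQ g))

/-- from the quotient to representatives -/
def S_OUT : Prop := ∀ (A : Type u) [NonUnitalCStarAlgebra A] [TopologicalSpace.SeparableSpace A]
  (ω : Ultrafilter ℕ), (ω : Filter ℕ) ≤ Filter.cofinite → ∀ (G : Type v) [Group G] [Countable G]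
  (α : G →* (A ≃⋆ₐ[ℂ] A)) (Q : Type u) [CStarAlgebra Q]
  (π : FF ω (Unitization ℂ A) →⋆ₐ[ℂ] Q), Function.Surjective π →
  (∀ x, π x = 0 ↔ x ∈ Ann ω (Set.range (fun a : A => (a : Unitization ℂ A)))) →
  ∀ (βQ : G →* (Q ≃⋆ₐ[ℂ] Q)), (∀ g x, βQ g (π x) = π (act ω (uact α) g x)) →
  ∀ (H : Subgroup G) (p q : ℕ), Nonempty (DimDrop p q →⋆ₐ[ℂ] fixAlg Q (fun g : H => βQ g)) →
  ∃ ρ : DimDrop p q → (ℕ →ᵇ A), Induces ω α H p q ρ

end Vale.Agent.P095N
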