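import Vale.Agent.P095N.Stmt

/-!
# P095N: inner automorphisms (multiplier unitaries)
-/

open Filter Topology BoundedContinuousFunction
open scoped MultiplierAlgebra

namespace Vale.Agent.P095N

open Vale.Agent.P101

universe u v

theorem fst_mul' {A : Type u} [NonUnitalCStarAlgebra A] (w : 𝓜(ℂ, A)) (a x : A) :
    w.fst (a * x) = w.fst a * x := by
  have h1 : ∀ z : A, z * (w.fst (a * x) - w.fst a * x) = 0 := by
    intro z
    rw [mul_sub, ← mul_assoc, ← w.central, ← w.central, ← mul_assoc, sub_self]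
  have h2 := h1 (star (w.fst (a * x) - w.fst a * x))
  rw [CStarRing.star_mul_self_eq_zero_iff] at h2
  exact sub_eq_zero.1 h2

theorem inner_est {A : Type u} [NonUnitalCStarAlgebra A] (φ : A ≃⋆ₐ[ℂ] A) (w : 𝓜(ℂ, A))
    (hw : w ∈ unitary 𝓜(ℂ, A))
    (h : ∀ a : A, ((φ a : A) : 𝓜(ℂ, A)) = w * (a : 𝓜(ℂ, A)) * star w) (z a : A) :
    ‖(φ z - z) * a‖ ≤ ‖w.fst‖ * ‖z * (star w).fst a - (star w).fst a * z‖ + ‖z * a - a * z‖ := by
  set b : A := (star w).fst a with hb
  have h1 : φ z * a = w.fst (z * b) := by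
    have h2 := congrArg (fun m : 𝓜(ℂ, A) => m.fst a) (h z)
    simpa [hb, DoubleCentralizer.mul_fst] using h2
  have h3 : w.fst b = a := by
    have h4 := congrArg (fun m : 𝓜(ℂ, A) => m.fst a) (Unitary.mem_iff.1 hw).2
    simpa [hb, DoubleCentralizer.mul_fst] using h4
  have h5 : (φ z - z) * a = w.fst (z * b - b * z) + (a * z - z * a) := by
    rw [sub_mul, h1, map_sub, fst_mul' w b z, h3]
    abel
  rw [h5]
  refine (norm_add_le _ _).trans ?_
  rw [norm_sub_rev (a * z)]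
  have := w.fst.le_opNorm (z * b - b * z)
  linarith

theorem induces_inner (ω : Ultrafilter ℕ) {A : Type u} [NonUnitalCStarAlgebra A] {G : Type v}
    [Group G] (α : G →* (A ≃⋆ₐ[ℂ] A)) (H : Subgroup G)
    (hH : ∀ g ∈ H, ∃ w ∈ unitary 𝓜(ℂ, A), ∀ a : A,
      ((α g a : A) : 𝓜(ℂ, A)) = w * (a : 𝓜(ℂ, A)) * star w)
    (h : DimDropsMap ω α ⊥) : DimDropsMap ω α H := by
  intro n
  obtain ⟨ρ, hρ⟩ := h n
  refine ⟨ρ, hρ.central, hρ.add, hρ.smul, hρ.mul, hρ.star, hρ.one, fun g hg x a => ?_⟩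
  obtain ⟨w, hw, hwa⟩ := hH g hg
  have h1 : Tendsto (fun n => ‖w.fst‖ * ‖ρ x n * (star w).fst a - (star w).fst a * ρ x n‖
      + ‖ρ x n * a - a * ρ x n‖) ω (𝓝 0) := by
    have := ((hρ.central x ((star w).fst a)).const_mul ‖w.fst‖).add (hρ.central x a)
    simpa using this
  exact squeeze_zero (fun n => norm_nonneg _) (fun n => inner_est (α g) w hw hwa _ _) h1

end Vale.Agent.P095N
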