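import Vale.Agent.P095N.Defs

/-!
# P095N: equivariant commuting copies in the quotient
-/

open Filter Topology BoundedContinuousFunction

namespace Vale.Agent.P095N

open Vale.Agent.P101 Vale.Agent.P101.UltA Vale.Agent.P095

universe u v

namespace QSelf

/-- factoring a star homomorphism -/
theorem factor {L : Type u} [Ring L] [StarRing L] [Algebra ℂ L] {Q : Type u} [Ring Q] [StarRing Q]
    [Algebra ℂ Q] [StarModule ℂ Q] (pL pm : L →⋆ₐ[ℂ] Q) (hk : ∀ a, pL a = 0 → pm a = 0)
    (D : StarSubalgebra ℂ Q) (hD : ∀ x ∈ D, ∃ a, pL a = x) :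
    ∃ κ : D →⋆ₐ[ℂ] Q, ∀ (x : D) (a : L), pL a = x → κ x = pm a := by
  choose l hl using fun x : D => hD x x.2
  have key : ∀ a b, pL a = pL b → pm a = pm b := by
    intro a b hab
    have h1 := hk (a - b) (by rw [map_sub, hab, sub_self])
    rwa [map_sub, sub_eq_zero] at h1
  have hkey : ∀ (x : D) (a : L), pL a = x → pm (l x) = pm a :=
    fun x a ha => key _ _ ((hl x).trans ha.symm)
  exact ⟨{ toFun := fun x => pm (l x)
           map_one' := by rw [hkey 1 1 (map_one pL), map_one]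
           map_mul' := fun x y => by
             rw [hkey (x * y) (l x * l y) (by rw [map_mul, hl, hl]; rfl), map_mul]
           map_zero' := by rw [hkey 0 0 (map_zero pL), map_zero]
           map_add' := fun x y => by
             rw [hkey (x + y) (l x + l y) (by rw [map_add, hl, hl]; rfl), map_add]
           commutes' := fun c => by
             rw [hkey (algebraMap ℂ D c) (algebraMap ℂ L c) (AlgHomClass.commutes pL c),
               AlgHomClass.commutes]
           map_star' := fun x => by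
             rw [hkey (star x) (star (l x)) (by rw [map_star, hl]; rfl), map_star] },
    fun x a ha => hkey x a ha⟩

variable (ω : Ultrafilter ℕ) {A : Type u} [CStarAlgebra A]

lemma exists_m (C : ℕ → ℕ → ℕ → ℕ → Prop) (h : ∀ j k n, ∀ᶠ p in (ω : Filter ℕ), C j k n p) :
    ∃ m : ℕ → ℕ, ∀ j k n, j ≤ n → k ≤ n → C j k n (m n) := by
  have h1 : ∀ n, ∃ p, ∀ j ∈ Finset.range (n + 1), ∀ k ∈ Finset.range (n + 1), C j k n p := by
    intro n
    have h2 : ∀ᶠ p in (ω : Filter ℕ), ∀ j ∈ Finset.range (n + 1), ∀ k ∈ Finset.range (n + 1),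
        C j k n p := by
      rw [Filter.eventually_all_finset]
      intro j _
      rw [Filter.eventually_all_finset]
      intro k _
      exact h j k n
    exact h2.exists
  choose m hm using h1
  exact ⟨m, fun j k n hj hk => hm n j (Finset.mem_range.2 (by omega)) k
    (Finset.mem_range.2 (by omega))⟩

/-- reindexing, with control of annihilators -/
theorem reindex' [TopologicalSpace.SeparableSpace A] (hω : (ω : Filter ℕ) ≤ Filter.cofinite)
    (L : Set (ℕ →ᵇ A)) (hL0 : (0 : ℕ →ᵇ A) ∈ L) (hLs : TopologicalSpace.IsSeparable L)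
    (hLc : ∀ a ∈ L, cl ω a ∈ CentralSeq ω A) (c : ℕ → A) :
    ∃ m : ℕ → ℕ, (∀ a ∈ L, ∀ k, cl ω a * constSeq ω (c k) = 0 →
        cl ω (re m a) * constSeq ω (c k) = 0) ∧
      (∀ a ∈ L, cl ω (re m a) ∈ CentralSeq ω A) ∧
      (∀ a ∈ L, ∀ b ∈ L, cl ω (re m a) * cl ω b = cl ω b * cl ω (re m a)) := by
  obtain ⟨t, htL, htc, htd⟩ := hLs.exists_countable_dense_subset
  have htne : t.Nonempty := by
    by_contra hcon
    rw [Set.not_nonempty_iff_eq_empty] at hcon
    rw [hcon, closure_empty] at htd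
    exact htd hL0
  obtain ⟨a, ha⟩ := htc.exists_eq_range htne
  have haL : ∀ j, a j ∈ L := fun j => htL (by rw [ha]; exact ⟨j, rfl⟩)
  have hLa : ∀ x ∈ L, x ∈ closure (Set.range a) := fun x hx => by rw [← ha]; exact htd hx
  set b : ℕ → A := TopologicalSpace.denseSeq A with hb
  have hat : (ω : Filter ℕ) ≤ atTop := by rwa [Nat.cofinite_eq_atTop] at hω
  have hcomm : ∀ (j : ℕ) (e : A) (ε : ℝ), 0 < ε →
      ∀ᶠ p in (ω : Filter ℕ), ‖a j p * e - e * a j p‖ < ε := by
    intro j e ε hε
    have h1 := (mem_central' ω).1 (hLc _ (haL j)) e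
    have h2 : cl ω (a j * BoundedContinuousFunction.const ℕ e)
        = cl ω (BoundedContinuousFunction.const ℕ e * a j) := h1.symm
    have h3 := (cl_eq ω).1 h2
    exact h3.eventually (gt_mem_nhds hε)
  obtain ⟨m, hm⟩ := exists_m ω (fun j k n p =>
      ‖a j p * c k‖ < nrm ω (cl ω (a j * BoundedContinuousFunction.const ℕ (c k)))
        + 1 / ((n : ℝ) + 1) ∧
      ‖a j p * a k n - a k n * a j p‖ < 1 / ((n : ℝ) + 1) ∧
      ‖a j p * b k - b k * a j p‖ < 1 / ((n : ℝ) + 1)) (by
    intro j k n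
    have hpos : (0 : ℝ) < 1 / ((n : ℝ) + 1) := by positivity
    refine ((tendsto_nrm ω (a := a j * BoundedContinuousFunction.const ℕ (c k)) rfl).eventually
        (gt_mem_nhds (lt_add_of_pos_right _ hpos))).and (Filter.Eventually.and ?_ ?_)
    · exact hcomm j _ _ hpos
    · exact hcomm j _ _ hpos)
  have hlim : Tendsto (fun n : ℕ => 1 / ((n : ℝ) + 1)) (ω : Filter ℕ) (𝓝 0) :=
    tendsto_one_div_add_atTop_nhds_zero_nat.mono_left hat
  have hge : ∀ j : ℕ, ∀ᶠ n in (ω : Filter ℕ), j ≤ n := fun j => hat (eventually_ge_atTop j)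
  refine ⟨m, ?_, ?_, ?_⟩
  · -- annihilators
    have h1 : ∀ j k, nrm ω (cl ω (re m (a j) * BoundedContinuousFunction.const ℕ (c k)))
        ≤ nrm ω (cl ω (a j * BoundedContinuousFunction.const ℕ (c k))) := by
      intro j k
      have h2 : Tendsto (fun n : ℕ => nrm ω (cl ω (a j * BoundedContinuousFunction.const ℕ (c k)))
          + 1 / ((n : ℝ) + 1)) (ω : Filter ℕ)
          (𝓝 (nrm ω (cl ω (a j * BoundedContinuousFunction.const ℕ (c k))))) := by
        simpa using hlim.const_add (nrm ω (cl ω (a j * BoundedContinuousFunction.const ℕ (c k))))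
      refine le_of_tendsto_of_tendsto
        (tendsto_nrm ω (a := re m (a j) * BoundedContinuousFunction.const ℕ (c k)) rfl) h2 ?_
      filter_upwards [hge j, hge k] with n hn hn'
      exact (hm j k n hn hn').1.le
    intro x hx k hxk
    refine eq_zero_of_nrm ω (le_antisymm ?_ (nrm_nonneg ω _))
    refine le_of_forall_pos_le_add fun ε hε => ?_
    have hpos : 0 < 2 * nrm ω (constSeq ω (c k)) + 1 := by
      have := nrm_nonneg ω (constSeq ω (c k))
      linarith
    obtain ⟨_, ⟨j, rfl⟩, hj⟩ := Metric.mem_closure_iff.1 (hLa x hx)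
      (ε / (2 * nrm ω (constSeq ω (c k)) + 1)) (div_pos hε hpos)
    rw [dist_eq_norm] at hj
    have h3 : nrm ω (cl ω (re m x) * constSeq ω (c k))
        ≤ nrm ω (cl ω (re m (a j)) * constSeq ω (c k)) + ‖x - a j‖ * nrm ω (constSeq ω (c k)) := by
      have h4 : cl ω (re m x) * constSeq ω (c k) = cl ω (re m (a j)) * constSeq ω (c k)
          + cl ω (re m (x - a j)) * constSeq ω (c k) := by
        rw [re_sub, cl_sub, ← add_mul]
        congr 1
        abel
      rw [h4]
      refine (nrm_add_le ω _ _).trans ?_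
      have h5 := (nrm_le ω (re m (x - a j))).trans (norm_re_le m _)
      have h6 := (nrm_mul_le ω (cl ω (re m (x - a j))) (constSeq ω (c k))).trans
        (mul_le_mul_of_nonneg_right h5 (nrm_nonneg ω _))
      linarith
    have h6 : nrm ω (cl ω (a j) * constSeq ω (c k)) ≤ ‖x - a j‖ * nrm ω (constSeq ω (c k)) := by
      have h4 : cl ω (a j) * constSeq ω (c k) = -(cl ω (x - a j) * constSeq ω (c k)) := by
        rw [cl_sub, sub_mul, hxk]
        abel
      rw [h4, nrm_neg]
      exact (nrm_mul_le ω _ _).trans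
        (mul_le_mul_of_nonneg_right (nrm_le ω (x - a j)) (nrm_nonneg ω _))
    have h7 := h1 j k
    have h8 : nrm ω (cl ω (re m (a j)) * constSeq ω (c k))
        ≤ nrm ω (cl ω (a j) * constSeq ω (c k)) := h7
    have h9 := nrm_nonneg ω (constSeq ω (c k))
    have h10 : ‖x - a j‖ * (2 * nrm ω (constSeq ω (c k)) + 1) ≤ ε := by
      rw [← le_div_iff₀ hpos]
      exact hj.le
    have h11 := norm_nonneg (x - a j)
    nlinarith
  · -- centrality
    intro x hx
    rw [mem_central']
    intro e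
    have h1 : ∀ j k, cl ω (re m (a j)) * constSeq ω (b k)
        = constSeq ω (b k) * cl ω (re m (a j)) := by
      intro j k
      change cl ω (re m (a j) * BoundedContinuousFunction.const ℕ (b k))
        = cl ω (BoundedContinuousFunction.const ℕ (b k) * re m (a j))
      refine (cl_eq ω).2 ?_
      refine squeeze_zero' (Eventually.of_forall fun n => norm_nonneg _) ?_ hlim
      filter_upwards [hge j, hge k] with n hn hn'
      exact (hm j k n hn hn').2.2.le
    have h2 : ∀ k, cl ω (re m x) * constSeq ω (b k) = constSeq ω (b k) * cl ω (re m x) := by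
      intro k
      refine comm_closure ω (re m) (re_sub m) (norm_re_le m) ?_ x (hLa x hx)
      rintro _ ⟨j, rfl⟩
      exact h1 j k
    have h3 := comm_closure ω (y := cl ω (re m x))
      (T := Set.range fun k => BoundedContinuousFunction.const ℕ (b k)) (fun a => a)
      (fun _ _ => rfl) (fun _ => le_rfl) (by
        rintro _ ⟨k, rfl⟩
        exact (h2 k).symm) (BoundedContinuousFunction.const ℕ e) (by
        rw [Metric.mem_closure_iff]
        intro ε hε
        have h4 : e ∈ closure (Set.range b) := TopologicalSpace.denseRange_denseSeq A e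
        obtain ⟨_, ⟨k, rfl⟩, hk⟩ := Metric.mem_closure_iff.1 h4 ε hε
        refine ⟨_, ⟨k, rfl⟩, ?_⟩
        refine lt_of_le_of_lt ?_ hk
        exact (BoundedContinuousFunction.dist_le dist_nonneg).2 fun n => le_rfl)
    exact h3
  · intro x hx y hy
    have h1 : ∀ j k, cl ω (re m (a j)) * cl ω (a k) = cl ω (a k) * cl ω (re m (a j)) := by
      intro j k
      change cl ω (re m (a j) * a k) = cl ω (a k * re m (a j))
      refine (cl_eq ω).2 ?_
      refine squeeze_zero' (Eventually.of_forall fun n => norm_nonneg _) ?_ hlim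
      filter_upwards [hge j, hge k] with n hn hn'
      exact (hm j k n hn hn').2.1.le
    have h2 : ∀ k, cl ω (re m x) * cl ω (a k) = cl ω (a k) * cl ω (re m x) := by
      intro k
      refine comm_closure ω (re m) (re_sub m) (norm_re_le m) ?_ x (hLa x hx)
      rintro _ ⟨j, rfl⟩
      exact h1 j k
    exact (comm_closure ω (y := cl ω (re m x)) (T := Set.range a) (fun a => a)
      (fun _ _ => rfl) (fun _ => le_rfl) (by
        rintro _ ⟨k, rfl⟩
        exact (h2 k).symm) y (hLa y hy)).symm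

/-- the classes of central sequences -/
noncomputable def toF : Lc ω (A := A) →⋆ₐ[ℂ] FF ω A where
  toFun x := ⟨cl ω (x : ℕ →ᵇ A), x.2⟩
  map_one' := rfl
  map_mul' _ _ := rfl
  map_zero' := rfl
  map_add' _ _ := rfl
  commutes' _ := rfl
  map_star' _ := rfl

end QSelf

open QSelf in
theorem qself : S_QSELF.{u, v} := by
  intro B _ _ ω hω G _ _ α J hJ Q _ π hπ hker βQ hβ S hS hinv
  -- a countable dense subset of the annihilated set
  obtain ⟨t', htJ, htc, htd⟩ :=
    (TopologicalSpace.IsSeparable.of_separableSpace J).exists_countable_dense_subset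
  obtain ⟨c, hc⟩ := (htc.insert 0).exists_eq_range ⟨0, Set.mem_insert _ _⟩
  have hcJ : ∀ k, c k = 0 ∨ c k ∈ J := by
    intro k
    have : c k ∈ insert 0 t' := by rw [hc]; exact ⟨k, rfl⟩
    rcases this with h | h
    · exact Or.inl h
    · exact Or.inr (htJ h)
  have annc : ∀ x : FF ω B, π x = 0 → ∀ k, (x : Ultrapower ω B) * constSeq ω (c k) = 0 := by
    intro x hx k
    rcases hcJ k with h | h
    · rw [h]
      exact mul_zero _
    · exact (hker x).1 hx _ h
  have cann : ∀ x : FF ω B, (∀ k, (x : Ultrapower ω B) * constSeq ω (c k) = 0) → π x = 0 := by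
    intro x hx
    rw [hker]
    intro a ha
    refine eq_zero_of_nrm ω (le_antisymm ?_ (nrm_nonneg ω _))
    refine le_of_forall_pos_le_add fun ε hε => ?_
    have hpos : 0 < nrm ω (x : Ultrapower ω B) + 1 := by
      have := nrm_nonneg ω (x : Ultrapower ω B)
      linarith
    obtain ⟨y, hy, hay⟩ := Metric.mem_closure_iff.1 (htd ha) (ε / (nrm ω (x : Ultrapower ω B) + 1))
      (div_pos hε hpos)
    have hy' : y ∈ Set.range c := by rw [← hc]; exact Set.mem_insert_of_mem _ hy
    obtain ⟨k, rfl⟩ := hy'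
    rw [dist_eq_norm] at hay
    have h1 : (x : Ultrapower ω B) * constSeq ω a
        = (x : Ultrapower ω B) * constSeq ω (a - c k) := by
      have h2 : constSeq ω (a - c k) = constSeq ω a - constSeq ω (c k) := rfl
      rw [h2, mul_sub, hx k, sub_zero]
    rw [h1]
    refine (nrm_mul_le ω _ _).trans ?_
    have h3 := nrm_nonneg ω (x : Ultrapower ω B)
    have h4 := nrm_constSeq_le ω (a - c k)
    have h5 : nrm ω (x : Ultrapower ω B) * (ε / (nrm ω (x : Ultrapower ω B) + 1)) ≤ ε := by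
      rw [mul_div_assoc', div_le_iff₀ hpos]
      nlinarith
    have h6 := mul_le_mul_of_nonneg_left (h4.trans hay.le) h3
    linarith
  -- lifts
  obtain ⟨s, hs⟩ := (hS.insert 0).exists_eq_range ⟨0, Set.mem_insert _ _⟩
  have hSs : S ⊆ Set.range s := by
    rw [← hs]; exact Set.subset_insert _ _
  choose y hy using fun i => hπ (s i)
  choose t0 ht0 using fun i => mk_surj ω B (y i : Ultrapower ω B)
  have hTc : (Set.range fun p : G × ℕ => seqMap (α p.1) (t0 p.2)).Countable :=
    Set.countable_range _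
  obtain ⟨t, ht⟩ := hTc.exists_eq_range (Set.range_nonempty _)
  have htf : ∀ (g : G) (i : ℕ), seqMap (α g) (t0 i) ∈ Set.range t := by
    intro g i
    rw [← ht]
    exact ⟨(g, i), rfl⟩
  have htb : ∀ j, ∃ (g : G) (i : ℕ), t j = seqMap (α g) (t0 i) := by
    intro j
    have : t j ∈ Set.range t := ⟨j, rfl⟩
    rw [← ht] at this
    obtain ⟨p, hp⟩ := this
    exact ⟨p.1, p.2, hp.symm⟩
  have ht0r : ∀ i, t0 i ∈ Set.range t := by
    intro i
    have := htf 1 i
    rw [map_one] at this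
    have h2 : seqMap (1 : B ≃⋆ₐ[ℂ] B) (t0 i) = t0 i := by ext n; rfl
    rwa [h2] at this
  set L : StarSubalgebra ℂ (ℕ →ᵇ B) := StarAlgebra.adjoin ℂ (Set.range t) with hL
  have hLle : L ≤ Lc ω := by
    apply StarAlgebra.adjoin_le
    rintro _ ⟨j, rfl⟩
    obtain ⟨g, i, hgi⟩ := htb j
    change cl ω (t j) ∈ CentralSeq ω B
    rw [hgi, ← ultraMap_cl]
    apply ultraMap_central
    have h2 : cl ω (t0 i) = (y i : Ultrapower ω B) := ht0 i
    rw [h2]
    exact (y i).2
  have hLc : ∀ a ∈ L, cl ω a ∈ CentralSeq ω B := fun a ha => hLle ha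
  have hLinv : ∀ (g : G), ∀ a ∈ L, seqMap (α g) a ∈ L := by
    intro g
    have h1 : L ≤ L.comap (seqHom (α g)) := by
      apply StarAlgebra.adjoin_le
      rintro _ ⟨j, rfl⟩
      obtain ⟨h, i, hgi⟩ := htb j
      change seqMap (α g) (t j) ∈ L
      rw [hgi]
      have h2 : seqMap (α g) (seqMap (α h) (t0 i)) = seqMap (α (g * h)) (t0 i) := by
        rw [map_mul]; rfl
      rw [h2]
      exact StarAlgebra.subset_adjoin ℂ _ (htf _ _)
    exact fun a ha => h1 ha
  obtain ⟨m, hm1, hm2, hm3⟩ := reindex' ω hω (L : Set (ℕ →ᵇ B)) (zero_mem L)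
    (isSeparable_adjoin t) hLc c
  -- the two homomorphisms
  let iL : L →⋆ₐ[ℂ] Lc ω (A := B) := StarSubalgebra.inclusion hLle
  let iM : L →⋆ₐ[ℂ] Lc ω (A := B) :=
    { toFun := fun a => ⟨re m (a : ℕ →ᵇ B), hm2 _ a.2⟩
      map_one' := rfl
      map_mul' := fun _ _ => rfl
      map_zero' := rfl
      map_add' := fun _ _ => rfl
      commutes' := fun _ => rfl
      map_star' := fun _ => rfl }
  let pL : L →⋆ₐ[ℂ] Q := (π.comp (toF ω)).comp iL
  let pm : L →⋆ₐ[ℂ] Q := (π.comp (toF ω)).comp iM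
  have hk : ∀ a, pL a = 0 → pm a = 0 := by
    intro a ha
    refine cann _ fun k => ?_
    exact hm1 (a : ℕ →ᵇ B) a.2 k (annc _ ha k)
  have hD' : StarAlgebra.adjoin ℂ S ≤ pL.range := by
    apply StarAlgebra.adjoin_le
    intro x hx
    obtain ⟨i, hi⟩ := hSs hx
    refine ⟨⟨t0 i, StarAlgebra.subset_adjoin ℂ _ (ht0r i)⟩, ?_⟩
    rw [← hi, ← hy i]
    exact congrArg π (Subtype.ext (ht0 i))
  obtain ⟨κ, hκ⟩ := factor pL pm hk (StarAlgebra.adjoin ℂ S) fun x hx => hD' hx
  refine ⟨κ, fun x z => ?_, fun g x z hxz => ?_⟩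
  · obtain ⟨a, ha⟩ := hD' x.2
    obtain ⟨b, hb⟩ := hD' z.2
    have ha' : pL a = (x : Q) := ha
    have hb' : pL b = (z : Q) := hb
    rw [hκ x a ha', ← hb']
    have h3 : (⟨cl ω (re m (a : ℕ →ᵇ B)), hm2 _ a.2⟩ : FF ω B) * ⟨cl ω (b : ℕ →ᵇ B), hLc _ b.2⟩
        = ⟨cl ω (b : ℕ →ᵇ B), hLc _ b.2⟩ * ⟨cl ω (re m (a : ℕ →ᵇ B)), hm2 _ a.2⟩ :=
      Subtype.ext (hm3 (a : ℕ →ᵇ B) a.2 (b : ℕ →ᵇ B) b.2)
    have h4 := congrArg π h3
    rw [map_mul, map_mul] at h4
    exact h4
  · obtain ⟨a, ha⟩ := hD' x.2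
    have ha' : pL a = (x : Q) := ha
    have h1 : pL ⟨seqMap (α g) (a : ℕ →ᵇ B), hLinv g _ a.2⟩ = (z : Q) := by
      rw [hxz, ← ha']
      exact (hβ g ⟨cl ω (a : ℕ →ᵇ B), hLc _ a.2⟩).symm
    rw [hκ x a ha', hκ z _ h1]
    exact (hβ g ⟨cl ω (re m (a : ℕ →ᵇ B)), hm2 _ a.2⟩).symm

end Vale.Agent.P095N
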