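import Vale.Agent.P095N.QuotX
import Vale.Agent.P095N.Defs

/-!
# P095N, module QUOT: quotient C*-algebras
-/

set_option autoImplicit false

namespace Vale.Agent.P095N

universe u

theorem quot_aux (F : Type u) [CStarAlgebra F] (I : Set F) (h1 : IsClosed I) (h2 : (0 : F) ∈ I)
    (h3 : ∀ x ∈ I, ∀ y ∈ I, x + y ∈ I) (h4 : ∀ x ∈ I, ∀ y : F, x * y ∈ I ∧ y * x ∈ I)
    (h5 : ∀ x ∈ I, star x ∈ I) :
    ∃ (Q : Type u) (_ : CStarAlgebra Q) (π : F →⋆ₐ[ℂ] Q), Function.Surjective π ∧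
      (∀ x, π x = 0 ↔ x ∈ I) ∧
      ∀ (q : Q) (e : ℝ), 0 < e → ∃ x, π x = q ∧ ‖x‖ < ‖q‖ + e := by
  let J : Ideal F :=
    { carrier := I
      add_mem' := fun {x y} hx hy => h3 x hx y hy
      zero_mem' := h2
      smul_mem' := fun c x hx => (h4 x hx c).2 }
  haveI : J.IsTwoSided := ⟨fun {a} b ha => (h4 a ha b).1⟩
  haveI : IsClosed (J : Set F) := h1
  letI : CStarAlgebra (F ⧸ J) := QuotX.cstar J h5
  let π : F →⋆ₐ[ℂ] (F ⧸ J) :=
    { toFun := fun x => Submodule.Quotient.mk x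
      map_one' := rfl
      map_mul' := fun _ _ => rfl
      map_zero' := rfl
      map_add' := fun _ _ => rfl
      commutes' := fun _ => rfl
      map_star' := fun _ => rfl }
  refine ⟨F ⧸ J, inferInstance, π, Submodule.Quotient.mk_surjective J, ?_, ?_⟩
  · intro x
    exact Submodule.Quotient.mk_eq_zero J
  · intro q e he
    exact Submodule.Quotient.norm_mk_lt (S := J) q he

theorem quot : S_QUOT.{u} := fun F _ I h1 h2 h3 h4 h5 => quot_aux F I h1 h2 h3 h4 h5

end Vale.Agent.P095N
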