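import Vale.Agent.P095N.Loc
import Vale.Agent.P095N.CharN
import Vale.Agent.P095N.Quot
import Vale.Agent.P095N.QSelf

/-!
# P095N: local approximation by subsystems
-/

open Filter Topology BoundedContinuousFunction

namespace Vale.Agent.P095N

open Vale.Agent.P101 Vale.Agent.P101.UltA Vale.Agent.P095

universe u v

open Loc in
/-- from approximate certificates to the absence of characters -/
theorem loc_back {B : Type u} [CStarAlgebra B] [TopologicalSpace.SeparableSpace B]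
    {ω : Ultrafilter ℕ} {G : Type v} [Group G]
    {α : G →* (B ≃⋆ₐ[ℂ] B)} {J : Set B} {Q : Type u} [CStarAlgebra Q]
    {π : FF ω B →⋆ₐ[ℂ] Q} (hker : ∀ x, π x = 0 ↔ x ∈ Ann ω J)
    {βQ : G →* (Q ≃⋆ₐ[ℂ] Q)} (hβ : ∀ g x, βQ g (π x) = π (act ω α g x))
    (g : ℕ → G) (hg : Function.Surjective g) (c : ℕ → B)
    (hcJ : ∀ k, c k = 0 ∨ c k ∈ J) (hJc : J ⊆ closure (Set.range c))
    (x : ℕ → {y : Fin 4 → B // ∀ i, ‖y i‖ ≤ 2})
    (hx : ∀ l, Tendsto (fun n => lev α (TopologicalSpace.denseSeq B) c g l (x n).1) ω (𝓝 0)) :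
    IsEmpty (fixAlg Q (fun g => βQ g) →⋆ₐ[ℂ] ℂ) := by
  classical
  set b : ℕ → B := TopologicalSpace.denseSeq B with hb
  have hs : ∀ x y : FF ω B, π (x - y) = π x - π y := by
    intro x y
    rw [eq_sub_iff_add_eq, ← map_add]
    exact congrArg π (sub_add_cancel x y)
  -- annihilators
  have annc : ∀ x : FF ω B, π x = 0 → ∀ k, (x : Ultrapower ω B) * constSeq ω (c k) = 0 := by
    intro x hx k
    rcases hcJ k with h | h
    · rw [h]
      exact mul_zero _
    · exact (hker x).1 hx _ h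
  have cann : ∀ x : FF ω B, (∀ k, (x : Ultrapower ω B) * constSeq ω (c k) = 0) → π x = 0 := by
    intro x hx
    rw [hker]
    intro a ha
    obtain ⟨z, hz⟩ := mk_surj ω B (x : Ultrapower ω B)
    refine eq_zero_of_nrm ω (le_antisymm ?_ (nrm_nonneg ω _))
    refine le_of_forall_pos_le_add fun ε hε => ?_
    have hpos : 0 < nrm ω (x : Ultrapower ω B) + 1 := by
      have := nrm_nonneg ω (x : Ultrapower ω B)
      linarith
    obtain ⟨y, hy, hay⟩ := Metric.mem_closure_iff.1 (hJc ha) (ε / (nrm ω (x : Ultrapower ω B) + 1))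
      (div_pos hε hpos)
    obtain ⟨k, rfl⟩ := hy
    rw [dist_eq_norm] at hay
    have h1 : (x : Ultrapower ω B) * constSeq ω a
        = (x : Ultrapower ω B) * constSeq ω (a - c k) := by
      have h2 : constSeq ω (a - c k) = constSeq ω a - constSeq ω (c k) := rfl
      rw [h2, mul_sub, hx k, sub_zero]
    rw [h1]
    refine (nrm_mul_le ω _ _).trans ?_
    have h3 := nrm_nonneg ω (x : Ultrapower ω B)
    have h4 := nrm_constSeq_le ω (a - c k)
    have h5 : nrm ω (x : Ultrapower ω B) * (ε / (nrm ω (x : Ultrapower ω B) + 1)) ≤ ε := by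
      rw [mul_div_assoc', div_le_iff₀ hpos]
      nlinarith
    have h6 := mul_le_mul_of_nonneg_left (h4.trans hay.le) h3
    linarith
  -- the resulting quadruple
  let a : Fin 4 → (ℕ →ᵇ B) := fun i =>
    BoundedContinuousFunction.ofNormedAddCommGroupDiscrete (fun n => (x n).1 i) 2
      (fun n => (x n).2 i)
  have hsub : ∀ l, Tendsto (fun n => dfc (c l.unpair.2) fun i => a i n) ω (𝓝 0) ∧
      (∀ i, Tendsto (fun n => ‖a i n * b l - b l * a i n‖) ω (𝓝 0)) ∧
      (∀ i, Tendsto (fun n => ‖(α (g l.unpair.1) (a i n) - a i n) * c l.unpair.2‖) ω (𝓝 0)) := by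
    intro l
    have hl := hx l
    refine ⟨?_, fun i => ?_, fun i => ?_⟩
    · refine squeeze_zero (fun n => dfc_nonneg _ _) (fun n => ?_) hl
      unfold lev
      have s1 : 0 ≤ ∑ i, ‖(x n).1 i * b l - b l * (x n).1 i‖ :=
        Finset.sum_nonneg fun i _ => norm_nonneg _
      have s2 : 0 ≤ ∑ i, ‖(α (g l.unpair.1) ((x n).1 i) - (x n).1 i) * c l.unpair.2‖ :=
        Finset.sum_nonneg fun i _ => norm_nonneg _
      have s3 : (dfc (c l.unpair.2) fun i => a i n) = dfc (c l.unpair.2) (x n).1 := rfl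
      rw [s3]
      linarith
    · refine squeeze_zero (fun n => norm_nonneg _) (fun n => ?_) hl
      unfold lev
      have s1 : ‖(x n).1 i * b l - b l * (x n).1 i‖ ≤ ∑ i, ‖(x n).1 i * b l - b l * (x n).1 i‖ :=
        Finset.single_le_sum (f := fun i => ‖(x n).1 i * b l - b l * (x n).1 i‖)
          (fun i _ => norm_nonneg _) (Finset.mem_univ i)
      have s2 : 0 ≤ ∑ i, ‖(α (g l.unpair.1) ((x n).1 i) - (x n).1 i) * c l.unpair.2‖ :=
        Finset.sum_nonneg fun i _ => norm_nonneg _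
      have s3 := dfc_nonneg (c l.unpair.2) (x n).1
      have s4 : ‖a i n * b l - b l * a i n‖ = ‖(x n).1 i * b l - b l * (x n).1 i‖ := rfl
      rw [s4]
      linarith
    · refine squeeze_zero (fun n => norm_nonneg _) (fun n => ?_) hl
      unfold lev
      have s1 : 0 ≤ ∑ i, ‖(x n).1 i * b l - b l * (x n).1 i‖ :=
        Finset.sum_nonneg fun i _ => norm_nonneg _
      have s2 : ‖(α (g l.unpair.1) ((x n).1 i) - (x n).1 i) * c l.unpair.2‖
          ≤ ∑ i, ‖(α (g l.unpair.1) ((x n).1 i) - (x n).1 i) * c l.unpair.2‖ :=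
        Finset.single_le_sum
          (f := fun i => ‖(α (g l.unpair.1) ((x n).1 i) - (x n).1 i) * c l.unpair.2‖)
          (fun i _ => norm_nonneg _) (Finset.mem_univ i)
      have s3 := dfc_nonneg (c l.unpair.2) (x n).1
      have s4 : ‖(α (g l.unpair.1) (a i n) - a i n) * c l.unpair.2‖
          = ‖(α (g l.unpair.1) ((x n).1 i) - (x n).1 i) * c l.unpair.2‖ := rfl
      rw [s4]
      linarith
  have hcentral : ∀ i, cl ω (a i) ∈ CentralSeq ω B := by
    intro i
    rw [mem_central']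
    intro e
    have h1 : ∀ k, cl ω (a i) * constSeq ω (b k) = constSeq ω (b k) * cl ω (a i) := by
      intro k
      change cl ω (a i * BoundedContinuousFunction.const ℕ (b k))
        = cl ω (BoundedContinuousFunction.const ℕ (b k) * a i)
      exact (cl_eq ω).2 ((hsub k).2.1 i)
    exact comm_closure ω (y := cl ω (a i))
      (T := Set.range fun k => BoundedContinuousFunction.const ℕ (b k)) (fun a => a)
      (fun _ _ => rfl) (fun _ => le_rfl) (by
        rintro _ ⟨k, rfl⟩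
        exact (h1 k).symm) (BoundedContinuousFunction.const ℕ e) (by
        rw [Metric.mem_closure_iff]
        intro ε hε
        have h4 : e ∈ closure (Set.range b) := TopologicalSpace.denseRange_denseSeq B e
        obtain ⟨_, ⟨k, rfl⟩, hk⟩ := Metric.mem_closure_iff.1 h4 ε hε
        refine ⟨_, ⟨k, rfl⟩, ?_⟩
        refine lt_of_le_of_lt ?_ hk
        exact (BoundedContinuousFunction.dist_le dist_nonneg).2 fun n => le_rfl)
  let W : Fin 4 → FF ω B := fun i => ⟨cl ω (a i), hcentral i⟩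
  have back : ∀ (z : ℕ →ᵇ B) (Z : FF ω B), cl ω z = (Z : Ultrapower ω B) →
      (∀ k, Tendsto (fun n => ‖z n * c k‖) ω (𝓝 0)) → π Z = 0 := by
    intro z Z hz h
    refine cann Z fun k => ?_
    rw [← hz, mul_const_iff]
    exact h k
  have hd : ∀ k, Tendsto (fun n => dfc (c k) fun i => a i n) ω (𝓝 0) := by
    intro k
    have h1 := (hsub (Nat.pair 0 k)).1
    rwa [Nat.unpair_pair] at h1
  have hcert : Cert (π (W 0)) (π (W 1)) (π (W 2)) (π (W 3)) := by
    refine ⟨?_, ?_, ?_, ?_, ?_⟩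
    · have h1 := back (a 0 * a 0) (W 0 * W 0) rfl fun k => by
        refine squeeze_zero (fun n => norm_nonneg _) (fun n => ?_) (hd k)
        unfold dfc
        change ‖(a 0 n * a 0 n) * c k‖ ≤ _
        have n2 := norm_nonneg (((a 0 n * star (a 0 n) + star (a 0 n) * a 0 n) -
          (a 1 n + a 2 n) * (a 1 n + a 2 n)) * c k)
        have n3 := norm_nonneg ((a 1 n * a 2 n) * c k)
        have n4 := norm_nonneg ((a 1 n * a 3 n - a 3 n) * c k)
        have n5 := norm_nonneg ((star (a 3 n) * a 3 n - (1 - (a 1 n + a 2 n))) * c k)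
        linarith
      rwa [map_mul] at h1
    · have h1 := back ((a 0 * star (a 0) + star (a 0) * a 0) - (a 1 + a 2) * (a 1 + a 2))
        ((W 0 * star (W 0) + star (W 0) * W 0) - (W 1 + W 2) * (W 1 + W 2)) rfl fun k => by
        refine squeeze_zero (fun n => norm_nonneg _) (fun n => ?_) (hd k)
        unfold dfc
        change ‖((a 0 n * star (a 0 n) + star (a 0 n) * a 0 n) -
          (a 1 n + a 2 n) * (a 1 n + a 2 n)) * c k‖ ≤ _
        have n2 := norm_nonneg ((a 0 n * a 0 n) * c k)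
        have n3 := norm_nonneg ((a 1 n * a 2 n) * c k)
        have n4 := norm_nonneg ((a 1 n * a 3 n - a 3 n) * c k)
        have n5 := norm_nonneg ((star (a 3 n) * a 3 n - (1 - (a 1 n + a 2 n))) * c k)
        linarith
      rw [hs, map_add, map_mul, map_mul, map_mul, map_add, map_star, sub_eq_zero] at h1
      exact h1
    · have h1 := back (a 1 * a 2) (W 1 * W 2) rfl fun k => by
        refine squeeze_zero (fun n => norm_nonneg _) (fun n => ?_) (hd k)
        unfold dfc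
        change ‖(a 1 n * a 2 n) * c k‖ ≤ _
        have n1 := norm_nonneg ((a 0 n * a 0 n) * c k)
        have n2 := norm_nonneg (((a 0 n * star (a 0 n) + star (a 0 n) * a 0 n) -
          (a 1 n + a 2 n) * (a 1 n + a 2 n)) * c k)
        have n4 := norm_nonneg ((a 1 n * a 3 n - a 3 n) * c k)
        have n5 := norm_nonneg ((star (a 3 n) * a 3 n - (1 - (a 1 n + a 2 n))) * c k)
        linarith
      rwa [map_mul] at h1
    · have h1 := back (a 1 * a 3 - a 3) (W 1 * W 3 - W 3) rfl fun k => by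
        refine squeeze_zero (fun n => norm_nonneg _) (fun n => ?_) (hd k)
        unfold dfc
        change ‖(a 1 n * a 3 n - a 3 n) * c k‖ ≤ _
        have n1 := norm_nonneg ((a 0 n * a 0 n) * c k)
        have n2 := norm_nonneg (((a 0 n * star (a 0 n) + star (a 0 n) * a 0 n) -
          (a 1 n + a 2 n) * (a 1 n + a 2 n)) * c k)
        have n3 := norm_nonneg ((a 1 n * a 2 n) * c k)
        have n5 := norm_nonneg ((star (a 3 n) * a 3 n - (1 - (a 1 n + a 2 n))) * c k)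
        linarith
      rw [hs, map_mul, sub_eq_zero] at h1
      exact h1
    · have h1 := back (star (a 3) * a 3 - (1 - (a 1 + a 2)))
        (star (W 3) * W 3 - (1 - (W 1 + W 2))) rfl fun k => by
        refine squeeze_zero (fun n => norm_nonneg _) (fun n => ?_) (hd k)
        unfold dfc
        change ‖(star (a 3 n) * a 3 n - (1 - (a 1 n + a 2 n))) * c k‖ ≤ _
        have n1 := norm_nonneg ((a 0 n * a 0 n) * c k)
        have n2 := norm_nonneg (((a 0 n * star (a 0 n) + star (a 0 n) * a 0 n) -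
          (a 1 n + a 2 n) * (a 1 n + a 2 n)) * c k)
        have n3 := norm_nonneg ((a 1 n * a 2 n) * c k)
        have n4 := norm_nonneg ((a 1 n * a 3 n - a 3 n) * c k)
        linarith
      rw [hs, map_mul, map_star, hs, map_one, map_add, sub_eq_zero] at h1
      exact h1
  have hfix : ∀ i, π (W i) ∈ fixAlg Q (fun g => βQ g) := by
    intro i h
    obtain ⟨j, rfl⟩ := hg h
    change βQ (g j) (π (W i)) = π (W i)
    rw [hβ, ← sub_eq_zero, ← hs]
    refine back (seqMap (α (g j)) (a i) - a i) _ rfl fun k => ?_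
    have h1 := (hsub (Nat.pair j k)).2.2 i
    rw [Nat.unpair_pair] at h1
    exact h1
  have hcert' : Cert (⟨π (W 0), hfix 0⟩ : fixAlg Q (fun g => βQ g)) ⟨π (W 1), hfix 1⟩
      ⟨π (W 2), hfix 2⟩ ⟨π (W 3), hfix 3⟩ := by
    obtain ⟨c1, c2, c3, c4, c5⟩ := hcert
    exact ⟨Subtype.ext c1, Subtype.ext c2, Subtype.ext c3, Subtype.ext c4, Subtype.ext c5⟩
  exact hcert'.noChar


lemma seq_act (ω : Ultrafilter ℕ) {B : Type u} [CStarAlgebra B] {K : Type v} [Group K]
    (αt : K →* (B ≃⋆ₐ[ℂ] B)) (a : ℕ →ᵇ B) (Y : FF ω B) (ha : cl ω a = (Y : Ultrapower ω B))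
    (k : K) : cl ω (seqMap (αt k) a - a) = ((act ω αt k Y - Y : FF ω B) : Ultrapower ω B) := by
  rw [cl_sub, ← ultraMap_cl, ha]
  rfl

lemma fwd_fixed {ω : Ultrafilter ℕ} {B : Type u} [NonUnitalCStarAlgebra B]
    {K : Type v} [Group K] {β : K →* (B ≃⋆ₐ[ℂ] B)} {Q : Type u} [CStarAlgebra Q]
    {π : FF ω (Unitization ℂ B) →⋆ₐ[ℂ] Q} {βQ : K →* (Q ≃⋆ₐ[ℂ] Q)} (D : QData ω B β Q π βQ)
    (a : ℕ →ᵇ Unitization ℂ B) (Y : FF ω (Unitization ℂ B))
    (ha : cl ω a = (Y : Ultrapower ω (Unitization ℂ B))) (k : K)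
    (hf : βQ k (π Y) = π Y) (b : B) :
    Tendsto (fun n => ‖(uact β k (a n) - a n) * (b : Unitization ℂ B)‖) ω (𝓝 0) := by
  have h1 : π (act ω (uact β) k Y - Y) = 0 := by rw [D.sub, ← D.equi, hf, sub_self]
  have h2 := (D.ker _).1 h1 (b : Unitization ℂ B) ⟨b, rfl⟩
  rw [← seq_act ω (uact β) a Y ha k, Loc.mul_const_iff] at h2
  exact h2

lemma fwd_comm (ω : Ultrafilter ℕ) {B : Type u} [CStarAlgebra B] (a : ℕ →ᵇ B) (Y : FF ω B)
    (ha : cl ω a = (Y : Ultrapower ω B)) (b : B) :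
    Tendsto (fun n => ‖a n * b - b * a n‖) ω (𝓝 0) := by
  have h1 := (mem_central' ω).1 Y.2 b
  rw [← ha] at h1
  have h2 : cl ω (a * BoundedContinuousFunction.const ℕ b)
      = cl ω (BoundedContinuousFunction.const ℕ b * a) := h1.symm
  exact (cl_eq ω).1 h2

open Loc in
lemma fwd_dfc {ω : Ultrafilter ℕ} {B : Type u} [CStarAlgebra B] {J : Set B} {Q : Type u}
    [CStarAlgebra Q] {π : FF ω B →⋆ₐ[ℂ] Q} (hker : ∀ x, π x = 0 ↔ x ∈ Ann ω J)
    (a : Fin 4 → (ℕ →ᵇ B)) (Y : Fin 4 → FF ω B) (ha : ∀ i, cl ω (a i) = (Y i : Ultrapower ω B))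
    (hc : Cert (π (Y 0)) (π (Y 1)) (π (Y 2)) (π (Y 3))) (b : B) (hb : b ∈ J) :
    Tendsto (fun n => dfc b fun i => a i n) ω (𝓝 0) := by
  obtain ⟨c1, c2, c3, c4, c5⟩ := hc
  have hs : ∀ x y : FF ω B, π (x - y) = π x - π y := by
    intro x y
    rw [eq_sub_iff_add_eq, ← map_add]
    exact congrArg π (sub_add_cancel x y)
  have key : ∀ (z : ℕ →ᵇ B) (Z : FF ω B),
      cl ω z = (Z : Ultrapower ω B) → π Z = 0 →
      Tendsto (fun n => ‖z n * b‖) ω (𝓝 0) := by
    intro z Z hz hZ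
    rw [← mul_const_iff, hz]
    exact (hker Z).1 hZ _ hb
  have r1 := key (a 0 * a 0) (Y 0 * Y 0) (by rw [cl_mul, ha]; rfl) (by
    rw [map_mul]; exact c1)
  have r2 := key ((a 0 * star (a 0) + star (a 0) * a 0) - (a 1 + a 2) * (a 1 + a 2))
    ((Y 0 * star (Y 0) + star (Y 0) * Y 0) - (Y 1 + Y 2) * (Y 1 + Y 2))
    (by rw [cl_sub, cl_add, cl_mul, cl_mul, cl_mul, cl_add, cl_star, ha, ha, ha]; rfl) (by
    rw [hs, map_add, map_mul, map_mul, map_mul, map_add, map_star, sub_eq_zero]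
    exact c2)
  have r3 := key (a 1 * a 2) (Y 1 * Y 2) (by rw [cl_mul, ha, ha]; rfl) (by
    rw [map_mul]; exact c3)
  have r4 := key (a 1 * a 3 - a 3) (Y 1 * Y 3 - Y 3)
    (by rw [cl_sub, cl_mul, ha, ha]; rfl) (by
    rw [hs, map_mul, sub_eq_zero]; exact c4)
  have r5 := key (star (a 3) * a 3 - (1 - (a 1 + a 2)))
    (star (Y 3) * Y 3 - (1 - (Y 1 + Y 2)))
    (by rw [cl_sub, cl_mul, cl_star, cl_sub, cl_add, ha, ha, ha]; rfl) (by
    rw [hs, map_mul, map_star, hs, map_one, map_add, sub_eq_zero]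
    exact c5)
  have := ((((r1.add r2).add r3).add r4).add r5)
  simpa [dfc] using this

open Loc in
/-- exact certificates of an equivariantly absorbing subsystem -/
theorem fwd {ω : Ultrafilter ℕ} (hω : (ω : Filter ℕ) ≤ Filter.cofinite) {B : Type u}
    [NonUnitalCStarAlgebra B] [TopologicalSpace.SeparableSpace B] {K : Type v} [Group K]
    [Countable K] {β : K →* (B ≃⋆ₐ[ℂ] B)} (hquot : S_QUOT.{u}) (hqself : S_QSELF.{u, v})
    (hin : S_IN.{u, v}) (hout : S_OUT.{u, v}) (h : DimDropsMap ω β ⊤) :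
    ∃ a : Fin 4 → (ℕ →ᵇ Unitization ℂ B), (∀ i n, ‖a i n‖ ≤ 2) ∧
      (∀ b : B, Tendsto (fun n => dfc (b : Unitization ℂ B) fun i => a i n) ω (𝓝 0)) ∧
      (∀ i (b : Unitization ℂ B), Tendsto (fun n => ‖a i n * b - b * a i n‖) ω (𝓝 0)) ∧
      ∀ i (k : K) (b : B), Tendsto (fun n => ‖(uact β k (a i n) - a i n)
        * (b : Unitization ℂ B)‖) ω (𝓝 0) := by
  obtain ⟨Q, _, π, βQ, D⟩ := exists_Q hquot ω B β
  have hχ := (D.iff hqself hin hout hω ⊤).1 h
  obtain ⟨E, _, ⟨e2⟩, hE⟩ := fixsc Q (⊤ : Subgroup K) (fun g : (⊤ : Subgroup K) => βQ g)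
    (D.selfComm hqself hω ⊤)
  have hEχ : IsEmpty (E →⋆ₐ[ℂ] ℂ) :=
    ⟨fun χ => hχ.false (χ.comp ((e2.symm : fixAlg Q (fun g : (⊤ : Subgroup K) => βQ g)
      ≃⋆ₐ[ℂ] E) : fixAlg Q (fun g : (⊤ : Subgroup K) => βQ g) →⋆ₐ[ℂ] E))⟩
  have hRW : RW 0 (fixAlg Q (fun g : (⊤ : Subgroup K) => βQ g)) :=
    (abstract E hE hEχ 0).map (e2 : E →⋆ₐ[ℂ] _)
  obtain ⟨X0, U0, V0, S0, ⟨mX, mU, mV, mS⟩, hcert, nX, nU, nV, nS⟩ := cert_of_RW _ hRW
  set q : Fin 4 → Q := ![X0, U0, V0, S0] with hq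
  have hqn : ∀ i, ‖q i‖ ≤ 1 := by
    intro i
    fin_cases i
    · exact nX
    · exact nU
    · exact nV
    · exact nS
  have hqm : ∀ i, q i ∈ fixAlg Q (fun g : (⊤ : Subgroup K) => βQ g) := by
    intro i
    fin_cases i
    · exact mX
    · exact mU
    · exact mV
    · exact mS
  choose Y hY hYn using fun i => D.nrmlift (q i) (1 / 2) (by norm_num)
  have hYn2 : ∀ i, nrm ω (Y i : Ultrapower ω (Unitization ℂ B)) < 2 := fun i => by
    have h1 := hYn i
    have h2 := hqn i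
    linarith
  choose a ha han using fun i => exists_lift ω (Y i : Ultrapower ω (Unitization ℂ B)) (hYn2 i)
  have hc : Cert (π (Y 0)) (π (Y 1)) (π (Y 2)) (π (Y 3)) := by
    rw [hY, hY, hY, hY]
    exact hcert
  exact ⟨a, fun i n => ((a i).norm_coe_le_norm n).trans (han i),
    fun b => fwd_dfc D.ker a Y ha hc _ ⟨b, rfl⟩,
    fun i b => fwd_comm ω (a i) (Y i) (ha i) b,
    fun i k b => fwd_fixed D (a i) (Y i) (ha i) k (by rw [hY]; exact hqm i ⟨k, trivial⟩) b⟩

namespace Lim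

open Loc

lemma dfc_bound {B : Type u} [CStarAlgebra B] (c c' : B) (y : Fin 4 → B) (hy : ∀ i, ‖y i‖ ≤ 2)
    (h1 : ‖(1 : B)‖ ≤ 1) : dfc c y ≤ dfc c' y + 47 * ‖c - c'‖ := by
  have key : ∀ (r : B) (t : ℝ), ‖r‖ ≤ t → ‖r * c‖ ≤ ‖r * c'‖ + t * ‖c - c'‖ := by
    intro r t hr
    have h2 : r * c = r * c' + r * (c - c') := by rw [mul_sub]; abel
    rw [h2]
    refine (norm_add_le _ _).trans (add_le_add le_rfl ((norm_mul_le _ _).trans ?_))
    exact mul_le_mul_of_nonneg_right hr (norm_nonneg _)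
  have m : ∀ (p q : B) (s t : ℝ), ‖p‖ ≤ s → ‖q‖ ≤ t → ‖p * q‖ ≤ s * t := fun p q s t hp hq =>
    (norm_mul_le p q).trans (mul_le_mul hp hq (norm_nonneg _) ((norm_nonneg _).trans hp))
  have hs : ‖star (y 0)‖ ≤ 2 := by rw [norm_star]; exact hy 0
  have hs3 : ‖star (y 3)‖ ≤ 2 := by rw [norm_star]; exact hy 3
  have h12 : ‖y 1 + y 2‖ ≤ 4 := (norm_add_le _ _).trans (by linarith [hy 1, hy 2])
  have k1 := key (y 0 * y 0) 4 ((m _ _ 2 2 (hy 0) (hy 0)).trans (by norm_num))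
  have k2 := key ((y 0 * star (y 0) + star (y 0) * y 0) - (y 1 + y 2) * (y 1 + y 2)) 24 (by
    refine (norm_sub_le _ _).trans ?_
    have e1 := norm_add_le (y 0 * star (y 0)) (star (y 0) * y 0)
    have e2 := m _ _ 2 2 (hy 0) hs
    have e3 := m _ _ 2 2 hs (hy 0)
    have e4 := m _ _ 4 4 h12 h12
    linarith)
  have k3 := key (y 1 * y 2) 4 ((m _ _ 2 2 (hy 1) (hy 2)).trans (by norm_num))
  have k4 := key (y 1 * y 3 - y 3) 6 (by
    refine (norm_sub_le _ _).trans ?_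
    have e1 := m _ _ 2 2 (hy 1) (hy 3)
    linarith [hy 3])
  have k5 := key (star (y 3) * y 3 - (1 - (y 1 + y 2))) 9 (by
    refine (norm_sub_le _ _).trans ?_
    have e1 := m _ _ 2 2 hs3 (hy 3)
    have e2 := norm_sub_le (1 : B) (y 1 + y 2)
    linarith)
  unfold dfc
  linarith

lemma dfc_map {B C : Type u} [CStarAlgebra B] [CStarAlgebra C] (φ : B →⋆ₐ[ℂ] C)
    (hφ : ∀ x, ‖φ x‖ ≤ ‖x‖) (c : B) (y : Fin 4 → B) :
    dfc (φ c) (fun i => φ (y i)) ≤ dfc c y := by
  unfold dfc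
  have e1 : (φ (y 0) * φ (y 0)) * φ c = φ ((y 0 * y 0) * c) := by simp
  have e2 : ((φ (y 0) * star (φ (y 0)) + star (φ (y 0)) * φ (y 0))
      - (φ (y 1) + φ (y 2)) * (φ (y 1) + φ (y 2))) * φ c
      = φ (((y 0 * star (y 0) + star (y 0) * y 0) - (y 1 + y 2) * (y 1 + y 2)) * c) := by
    simp [map_star]
  have e3 : (φ (y 1) * φ (y 2)) * φ c = φ ((y 1 * y 2) * c) := by simp
  have e4 : (φ (y 1) * φ (y 3) - φ (y 3)) * φ c = φ ((y 1 * y 3 - y 3) * c) := by simp
  have e5 : (star (φ (y 3)) * φ (y 3) - (1 - (φ (y 1) + φ (y 2)))) * φ c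
      = φ ((star (y 3) * y 3 - (1 - (y 1 + y 2))) * c) := by simp [map_star]
  rw [e1, e2, e3, e4, e5]
  have := hφ ((y 0 * y 0) * c)
  have := hφ (((y 0 * star (y 0) + star (y 0) * y 0) - (y 1 + y 2) * (y 1 + y 2)) * c)
  have := hφ ((y 1 * y 2) * c)
  have := hφ ((y 1 * y 3 - y 3) * c)
  have := hφ ((star (y 3) * y 3 - (1 - (y 1 + y 2))) * c)
  linarith

end Lim

end Vale.Agent.P095N
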