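import Vale.Agent.P095N.Lim

/-!
# P095N: local approximation by subsystems, main theorem
-/

open Filter Topology BoundedContinuousFunction

namespace Vale.Agent.P095N

open Vale.Agent.P101 Vale.Agent.P101.UltA Vale.Agent.P095

universe u v

namespace Lim

open Loc

lemma uact_map {A B : Type u} [NonUnitalCStarAlgebra A] [NonUnitalCStarAlgebra B] {G K : Type v}
    [Group G] [Group K] (α : G →* (A ≃⋆ₐ[ℂ] A)) (β : K →* (B ≃⋆ₐ[ℂ] B)) (ι : B →⋆ₙₐ[ℂ] A)
    (g : G) (k : K) (h : ∀ b, ι (β k b) = α g (ι b)) (x : Unitization ℂ B) :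
    uact α g (Unitization.starMap ι x) = Unitization.starMap ι (uact β k x) := by
  induction x with
  | inl_add_inr r b =>
    change Unitization.starMap ((α g : A →⋆ₙₐ[ℂ] A)) (Unitization.starMap ι _)
      = Unitization.starMap ι (Unitization.starMap ((β k : B →⋆ₙₐ[ℂ] B)) _)
    simp only [map_add, Unitization.starMap_inl, Unitization.starMap_inr, AlgHomClass.commutes]
    congr 2
    exact (h b).symm

lemma comm_est {A : Type u} [NonUnitalCStarAlgebra A] (y : Unitization ℂ A) (hy : ‖y‖ ≤ 2)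
    (b : Unitization ℂ A) (a : A) (ε δ : ℝ) (h1 : ‖b.snd - a‖ < ε)
    (h2 : ‖y * (a : Unitization ℂ A) - (a : Unitization ℂ A) * y‖ ≤ δ) :
    ‖y * b - b * y‖ ≤ δ + 4 * ε := by
  have e1 : y * b - b * y = (y * (a : Unitization ℂ A) - (a : Unitization ℂ A) * y)
      + (y * ((b.snd - a : A) : Unitization ℂ A) - ((b.snd - a : A) : Unitization ℂ A) * y) := by
    have e2 : b = algebraMap ℂ (Unitization ℂ A) b.fst + (b.snd : Unitization ℂ A) :=
      (Unitization.inl_fst_add_inr_snd_eq b).symm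
    have e3 := Algebra.commutes b.fst y
    conv_lhs => rw [e2]
    rw [mul_add, add_mul, e3, Unitization.inr_sub, mul_sub, sub_mul]
    abel
  rw [e1]
  refine (norm_add_le _ _).trans (add_le_add h2 ((norm_sub_le _ _).trans ?_))
  have e4 : ‖((b.snd - a : A) : Unitization ℂ A)‖ < ε := by rwa [Unitization.norm_inr]
  have e5 := norm_mul_le y ((b.snd - a : A) : Unitization ℂ A)
  have e6 := norm_mul_le ((b.snd - a : A) : Unitization ℂ A) y
  have e7 := norm_nonneg ((b.snd - a : A) : Unitization ℂ A)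
  nlinarith

lemma fix_est {C : Type u} [CStarAlgebra C] (z : C) (hz : ‖z‖ ≤ 4) (c c' : C) (ε δ : ℝ)
    (h1 : ‖c - c'‖ < ε) (h2 : ‖z * c'‖ ≤ δ) : ‖z * c‖ ≤ δ + 4 * ε := by
  have e1 : z * c = z * c' + z * (c - c') := by rw [mul_sub]; abel
  rw [e1]
  refine (norm_add_le _ _).trans (add_le_add h2 ((norm_mul_le _ _).trans ?_))
  have e7 := norm_nonneg (c - c')
  nlinarith

end Lim

open Lim Loc in
theorem lim_top (hquot : S_QUOT.{u}) (hqself : S_QSELF.{u, v}) (hin : S_IN.{u, v})
    (hout : S_OUT.{u, v}) (ω : Ultrafilter ℕ) (hω : (ω : Filter ℕ) ≤ Filter.cofinite) {A : Type u}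
    [NonUnitalCStarAlgebra A] [TopologicalSpace.SeparableSpace A] {G : Type v} [Group G]
    [Countable G] (α : G →* (A ≃⋆ₐ[ℂ] A))
    (h : ∀ (s : Finset G) (F : Finset A) (ε : ℝ), 0 < ε → ∃ (K : Subgroup G) (B : Type u)
      (_ : NonUnitalCStarAlgebra B) (_ : TopologicalSpace.SeparableSpace B)
      (β : K →* (B ≃⋆ₐ[ℂ] B)) (ι : B →⋆ₙₐ[ℂ] A), (s : Set G) ⊆ K ∧
      (∀ (k : K) b, ι (β k b) = α k (ι b)) ∧ (∀ a ∈ F, ∃ b, ‖a - ι b‖ < ε) ∧
      DimDropsMap ω β ⊤) : DimDropsMap ω α ⊤ := by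
  classical
  obtain ⟨Q, _, π, βQ, D⟩ := exists_Q hquot ω A α
  rw [D.iff hqself hin hout hω ⊤]
  suffices h1 : IsEmpty (fixAlg Q (fun g => βQ g) →⋆ₐ[ℂ] ℂ) from
    ⟨fun χ => h1.false (χ.comp (StarSubalgebra.inclusion fun x hx g => hx g))⟩
  obtain ⟨g, hg⟩ := exists_surjective_nat G
  set c' : ℕ → A := TopologicalSpace.denseSeq A with hc'
  set b : ℕ → Unitization ℂ A := TopologicalSpace.denseSeq (Unitization ℂ A) with hb
  let c : ℕ → Unitization ℂ A := fun k => (c' k : Unitization ℂ A)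
  have hJc : Set.range (fun a : A => (a : Unitization ℂ A)) ⊆ closure (Set.range c) := by
    rintro _ ⟨a, rfl⟩
    rw [Metric.mem_closure_iff]
    intro ε hε
    obtain ⟨_, ⟨k, rfl⟩, hk⟩ := Metric.mem_closure_iff.1
      (TopologicalSpace.denseRange_denseSeq A a) ε hε
    refine ⟨c k, ⟨k, rfl⟩, ?_⟩
    rw [dist_eq_norm] at hk ⊢
    change ‖(a : Unitization ℂ A) - (c' k : Unitization ℂ A)‖ < ε
    rw [← Unitization.inr_sub, Unitization.norm_inr]
    exact hk
  have hy : ∀ N : ℕ, ∃ y : {y : Fin 4 → Unitization ℂ A // ∀ i, ‖y i‖ ≤ 2}, ∀ l ≤ N,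
      lev (uact α) b c g l y.1 < 1 / ((N : ℝ) + 1) := by
    intro N
    have hN : (0 : ℝ) < (N : ℝ) + 1 := by positivity
    set ε : ℝ := 1 / (100 * ((N : ℝ) + 1)) with hε
    have hε0 : 0 < ε := by positivity
    obtain ⟨K, B, _, _, β, ι, hsK, hι, hF, hD⟩ := h
      ((Finset.range (N + 1)).image fun l => g l.unpair.1)
      ((Finset.range (N + 1)).image (fun l => c' l.unpair.2) ∪
        (Finset.range (N + 1)).image (fun l => (b l).snd)) ε hε0
    have hgK : ∀ l ≤ N, g l.unpair.1 ∈ K := by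
      intro l hl
      apply hsK
      rw [Finset.coe_image]
      exact ⟨l, by simpa using Nat.lt_succ_of_le hl, rfl⟩
    have hb1 : ∀ l, ∃ b1 : B, l ≤ N → ‖c' l.unpair.2 - ι b1‖ < ε := by
      intro l
      by_cases hl : l ≤ N
      · obtain ⟨b1, h1⟩ := hF (c' l.unpair.2) (Finset.mem_union_left _
          (Finset.mem_image.2 ⟨l, Finset.mem_range.2 (by omega), rfl⟩))
        exact ⟨b1, fun _ => h1⟩
      · exact ⟨0, fun h => absurd h hl⟩
    have hb2 : ∀ l, ∃ b2 : B, l ≤ N → ‖(b l).snd - ι b2‖ < ε := by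
      intro l
      by_cases hl : l ≤ N
      · obtain ⟨b2, h1⟩ := hF (b l).snd (Finset.mem_union_right _
          (Finset.mem_image.2 ⟨l, Finset.mem_range.2 (by omega), rfl⟩))
        exact ⟨b2, fun _ => h1⟩
      · exact ⟨0, fun h => absurd h hl⟩
    choose b1 hb1 using hb1
    choose b2 hb2 using hb2
    obtain ⟨a, ha2, had, hac, haf⟩ := fwd hω hquot hqself hin hout hD
    have hev : ∀ᶠ n in (ω : Filter ℕ), ∀ l ∈ Finset.range (N + 1),
        dfc ((b1 l : B) : Unitization ℂ B) (fun i => a i n) < ε ∧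
        (∀ i ∈ (Finset.univ : Finset (Fin 4)), ‖a i n * ((b2 l : B) : Unitization ℂ B)
          - ((b2 l : B) : Unitization ℂ B) * a i n‖ < ε) ∧
        ∀ i ∈ (Finset.univ : Finset (Fin 4)), ∀ hl : l ≤ N,
          ‖(uact β ⟨g l.unpair.1, hgK l hl⟩ (a i n) - a i n)
            * ((b1 l : B) : Unitization ℂ B)‖ < ε := by
      rw [Filter.eventually_all_finset]
      intro l hl
      refine ((had (b1 l)).eventually (gt_mem_nhds hε0)).and (Filter.Eventually.and ?_ ?_)
      · rw [Filter.eventually_all_finset]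
        intro i _
        exact (hac i _).eventually (gt_mem_nhds hε0)
      · rw [Filter.eventually_all_finset]
        intro i _
        have hl' : l ≤ N := by
          have := Finset.mem_range.1 hl
          omega
        refine ((haf i ⟨g l.unpair.1, hgK l hl'⟩ (b1 l)).eventually (gt_mem_nhds hε0)).mono ?_
        intro n hn _
        exact hn
    obtain ⟨n, hn⟩ := hev.exists
    let φ : Unitization ℂ B →⋆ₐ[ℂ] Unitization ℂ A := Unitization.starMap ι
    have hφ : ∀ x, ‖φ x‖ ≤ ‖x‖ := fun x => NonUnitalStarAlgHom.norm_apply_le φ x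
    have hyn : ∀ i, ‖φ (a i n)‖ ≤ 2 := fun i => (hφ _).trans (ha2 i n)
    refine ⟨⟨fun i => φ (a i n), hyn⟩, fun l hl => ?_⟩
    obtain ⟨n1, n2, n3⟩ := hn l (Finset.mem_range.2 (by omega))
    have hinr : ∀ x : B, φ (x : Unitization ℂ B) = ((ι x : A) : Unitization ℂ A) :=
      fun x => Unitization.starMap_inr ι x
    have hcc : ‖c l.unpair.2 - φ ((b1 l : B) : Unitization ℂ B)‖ < ε := by
      rw [hinr]
      change ‖((c' l.unpair.2 : A) : Unitization ℂ A) - ((ι (b1 l) : A) : Unitization ℂ A)‖ < ε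
      rw [← Unitization.inr_sub, Unitization.norm_inr]
      exact hb1 l hl
    have d1 := dfc_bound (c l.unpair.2) (φ ((b1 l : B) : Unitization ℂ B))
      (fun i => φ (a i n)) hyn norm_one.le
    have d2 := dfc_map φ hφ ((b1 l : B) : Unitization ℂ B) (fun i => a i n)
    have d3 : ∀ i : Fin 4, ‖φ (a i n) * b l - b l * φ (a i n)‖ ≤ ε + 4 * ε := by
      intro i
      refine comm_est (φ (a i n)) (hyn i) (b l) (ι (b2 l)) ε ε (hb2 l hl) ?_
      have e1 : φ (a i n) * ((ι (b2 l) : A) : Unitization ℂ A)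
          - ((ι (b2 l) : A) : Unitization ℂ A) * φ (a i n)
          = φ (a i n * ((b2 l : B) : Unitization ℂ B)
            - ((b2 l : B) : Unitization ℂ B) * a i n) := by
        rw [map_sub, map_mul, map_mul, hinr]
      rw [e1]
      exact (hφ _).trans (n2 i (Finset.mem_univ i)).le
    have d4 : ∀ i : Fin 4, ‖(uact α (g l.unpair.1) (φ (a i n)) - φ (a i n))
        * c l.unpair.2‖ ≤ ε + 4 * ε := by
      intro i
      refine fix_est _ ?_ (c l.unpair.2) (φ ((b1 l : B) : Unitization ℂ B)) ε ε hcc ?_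
      · refine (norm_sub_le _ _).trans ?_
        rw [StarAlgEquiv.norm_map]
        linarith [hyn i]
      · have e2 : uact α (g l.unpair.1) (φ (a i n))
            = φ (uact β ⟨g l.unpair.1, hgK l hl⟩ (a i n)) :=
          uact_map α β ι _ _ (fun b => hι ⟨g l.unpair.1, hgK l hl⟩ b) _
        rw [e2, ← map_sub, ← map_mul]
        exact (hφ _).trans (n3 i (Finset.mem_univ i) hl).le
    have s1 : (∑ i : Fin 4, ‖φ (a i n) * b l - b l * φ (a i n)‖) ≤ 20 * ε := by
      have := Finset.sum_le_sum (fun i (_ : i ∈ (Finset.univ : Finset (Fin 4))) => d3 i)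
      simp only [Finset.sum_const, Finset.card_univ, Fintype.card_fin, nsmul_eq_mul] at this
      push_cast at this
      linarith
    have s2 : (∑ i : Fin 4, ‖(uact α (g l.unpair.1) (φ (a i n)) - φ (a i n))
        * c l.unpair.2‖) ≤ 20 * ε := by
      have := Finset.sum_le_sum (fun i (_ : i ∈ (Finset.univ : Finset (Fin 4))) => d4 i)
      simp only [Finset.sum_const, Finset.card_univ, Fintype.card_fin, nsmul_eq_mul] at this
      push_cast at this
      linarith
    have hfin : 1 / ((N : ℝ) + 1) = 100 * ε := by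
      rw [hε]
      field_simp
    rw [hfin]
    unfold lev
    linarith
  choose x hx using hy
  have hat : (ω : Filter ℕ) ≤ atTop := by rwa [Nat.cofinite_eq_atTop] at hω
  refine loc_back D.ker D.equi g hg c (fun k => Or.inr ⟨c' k, rfl⟩) hJc x (fun l => ?_)
  have hlim : Tendsto (fun n : ℕ => 1 / ((n : ℝ) + 1)) (ω : Filter ℕ) (𝓝 0) :=
    tendsto_one_div_add_atTop_nhds_zero_nat.mono_left hat
  refine squeeze_zero' (Eventually.of_forall fun n => ?_) ?_ hlim
  · have := dfc_nonneg (c l.unpair.2) (x n).1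
    unfold lev
    positivity
  · have h2 : ∀ᶠ n in (ω : Filter ℕ), l ≤ n := hat (eventually_ge_atTop l)
    filter_upwards [h2] with n hn
    exact (hx n l hn).le

end Vale.Agent.P095N
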