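import Vale.Agent.P095N.Defs

/-!
# P095N: directed unions
-/

open Filter Topology BoundedContinuousFunction

namespace Vale.Agent.P095N

open Vale.Agent.P101 Vale.Agent.P101.UltA Vale.Agent.P095

universe u v

namespace Loc

/-- the defect of a quadruple relative to `c` -/
noncomputable def dfc {B : Type u} [CStarAlgebra B] (c : B) (y : Fin 4 → B) : ℝ :=
  ‖(y 0 * y 0) * c‖ + ‖((y 0 * star (y 0) + star (y 0) * y 0) - (y 1 + y 2) * (y 1 + y 2)) * c‖ +
    ‖(y 1 * y 2) * c‖ + ‖(y 1 * y 3 - y 3) * c‖ + ‖(star (y 3) * y 3 - (1 - (y 1 + y 2))) * c‖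

/-- the level function -/
noncomputable def lev {B : Type u} [CStarAlgebra B] {G : Type v} [Group G]
    (α : G →* (B ≃⋆ₐ[ℂ] B)) (b c : ℕ → B) (g : ℕ → G) (l : ℕ) (y : Fin 4 → B) : ℝ :=
  dfc (c l.unpair.2) y + (∑ i, ‖y i * b l - b l * y i‖) +
    ∑ i, ‖(α (g l.unpair.1) (y i) - y i) * c l.unpair.2‖

lemma dfc_nonneg {B : Type u} [CStarAlgebra B] (c : B) (y : Fin 4 → B) : 0 ≤ dfc c y := by
  unfold dfc; positivity

lemma mul_const_iff (ω : Ultrafilter ℕ) {B : Type u} [CStarAlgebra B] (z : ℕ →ᵇ B) (c : B) :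
    cl ω z * constSeq ω c = 0 ↔ Tendsto (fun n => ‖z n * c‖) ω (𝓝 0) := by
  have h1 : cl ω z * constSeq ω c = cl ω (z * BoundedContinuousFunction.const ℕ c) := rfl
  rw [h1, ← cl_zero, cl_eq]
  simp

end Loc

open Loc in
theorem loc (hqself : S_QSELF.{u, v}) : S_LOC.{u, v} := by
  classical
  intro B _ _ ω hω G _ _ α J hJ Q _ π hπ hker hlift βQ hβ hK
  obtain ⟨g, hg⟩ := exists_surjective_nat G
  set b : ℕ → B := TopologicalSpace.denseSeq B with hb
  obtain ⟨t, htJ, htc, htd⟩ :=
    (TopologicalSpace.IsSeparable.of_separableSpace J).exists_countable_dense_subset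
  obtain ⟨c, hc⟩ := (htc.insert 0).exists_eq_range ⟨0, Set.mem_insert _ _⟩
  have hcJ : ∀ k, c k = 0 ∨ c k ∈ J := by
    intro k
    have : c k ∈ insert 0 t := by rw [hc]; exact ⟨k, rfl⟩
    rcases this with h | h
    · exact Or.inl h
    · exact Or.inr (htJ h)
  have hs : ∀ x y : FF ω B, π (x - y) = π x - π y := by
    intro x y
    rw [eq_sub_iff_add_eq, ← map_add]
    exact congrArg π (sub_add_cancel x y)
  -- annihilators
  have annc : ∀ x : FF ω B, π x = 0 → ∀ k, (x : Ultrapower ω B) * constSeq ω (c k) = 0 := by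
    intro x hx k
    rcases hcJ k with h | h
    · rw [h]
      exact mul_zero _
    · exact (hker x).1 hx _ h
  have cann : ∀ x : FF ω B, (∀ k, (x : Ultrapower ω B) * constSeq ω (c k) = 0) → π x = 0 := by
    intro x hx
    rw [hker]
    intro a ha
    obtain ⟨z, hz⟩ := mk_surj ω B (x : Ultrapower ω B)
    refine eq_zero_of_nrm ω (le_antisymm ?_ (nrm_nonneg ω _))
    refine le_of_forall_pos_le_add fun ε hε => ?_
    have hpos : 0 < nrm ω (x : Ultrapower ω B) + 1 := by
      have := nrm_nonneg ω (x : Ultrapower ω B)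
      linarith
    obtain ⟨y, hy, hay⟩ := Metric.mem_closure_iff.1 (htd ha) (ε / (nrm ω (x : Ultrapower ω B) + 1))
      (div_pos hε hpos)
    have hy' : y ∈ Set.range c := by rw [← hc]; exact Set.mem_insert_of_mem _ hy
    obtain ⟨k, rfl⟩ := hy'
    rw [dist_eq_norm] at hay
    have h1 : (x : Ultrapower ω B) * constSeq ω a
        = (x : Ultrapower ω B) * constSeq ω (a - c k) := by
      have h2 : constSeq ω (a - c k) = constSeq ω a - constSeq ω (c k) := rfl
      rw [h2, mul_sub, hx k, sub_zero]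
    rw [h1]
    refine (nrm_mul_le ω _ _).trans ?_
    have h3 := nrm_nonneg ω (x : Ultrapower ω B)
    have h4 := nrm_constSeq_le ω (a - c k)
    have h5 : nrm ω (x : Ultrapower ω B) * (ε / (nrm ω (x : Ultrapower ω B) + 1)) ≤ ε := by
      rw [mul_div_assoc', div_le_iff₀ hpos]
      nlinarith
    have h6 := mul_le_mul_of_nonneg_left (h4.trans hay.le) h3
    linarith
  -- the space of bounded quadruples
  let X := {y : Fin 4 → B // ∀ i, ‖y i‖ ≤ 2}
  obtain ⟨x, hx⟩ := saturate (X := X) ω hω (fun l y => lev α b c g l y.1)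
    (by
      intro l y
      have := dfc_nonneg (c l.unpair.2) y.1
      unfold lev
      positivity)
    (by
      intro k
      obtain ⟨K, hsK, hχ⟩ := hK ((Finset.range (k + 1)).image fun l => g l.unpair.1)
      have hgK : ∀ l ≤ k, g l.unpair.1 ∈ K := by
        intro l hl
        apply hsK
        rw [Finset.coe_image]
        exact ⟨l, by simpa using Nat.lt_succ_of_le hl, rfl⟩
      -- the relations hold in the fixed point algebra
      have hQs : EqSelfComm Q (fun h : K => βQ h) :=
        hqself B ω hω K (α.comp K.subtype) J (fun h => hJ h) Q π hπ hker (βQ.comp K.subtype)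
          (fun h x => hβ h x)
      obtain ⟨E, _, ⟨e2⟩, hE⟩ := fixsc Q K (fun h : K => βQ h) hQs
      have hEχ : IsEmpty (E →⋆ₐ[ℂ] ℂ) :=
        ⟨fun χ => hχ.false (χ.comp ((e2.symm : fixAlg Q (fun h : K => βQ h) ≃⋆ₐ[ℂ] E) :
          fixAlg Q (fun h : K => βQ h) →⋆ₐ[ℂ] E))⟩
      have hRW : RW 0 (fixAlg Q (fun h : K => βQ h)) :=
        (abstract E hE hEχ 0).map (e2 : E →⋆ₐ[ℂ] _)
      obtain ⟨X0, U0, V0, S0, ⟨mX, mU, mV, mS⟩, hcert, nX, nU, nV, nS⟩ := cert_of_RW _ hRW
      set q : Fin 4 → Q := ![X0, U0, V0, S0] with hq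
      have hqn : ∀ i, ‖q i‖ ≤ 1 := by
        intro i
        fin_cases i
        · exact nX
        · exact nU
        · exact nV
        · exact nS
      have hqm : ∀ i, q i ∈ fixAlg Q (fun h : K => βQ h) := by
        intro i
        fin_cases i
        · exact mX
        · exact mU
        · exact mV
        · exact mS
      choose Y hY hYn using fun i => hlift (q i) (1 / 2) (by norm_num)
      have hYn2 : ∀ i, nrm ω (Y i : Ultrapower ω B) < 2 := fun i => by
        have h1 := hYn i
        have h2 := hqn i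
        linarith
      choose a ha han using fun i => exists_lift ω (Y i : Ultrapower ω B) (hYn2 i)
      refine ⟨fun n => ⟨fun i => a i n, fun i => ((a i).norm_coe_le_norm n).trans (han i)⟩, ?_⟩
      intro l hl
      obtain ⟨c1, c2, c3, c4, c5⟩ := hcert
      have key : ∀ (z : ℕ →ᵇ B) (Z : FF ω B), cl ω z = (Z : Ultrapower ω B) → π Z = 0 →
          Tendsto (fun n => ‖z n * c l.unpair.2‖) ω (𝓝 0) := by
        intro z Z hz hZ
        rw [← mul_const_iff, hz]
        exact annc Z hZ _
      have t1 : Tendsto (fun n => dfc (c l.unpair.2) fun i => a i n) ω (𝓝 0) := by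
        have r1 := key (a 0 * a 0) (Y 0 * Y 0) (by rw [cl_mul, ha]; rfl) (by
          rw [map_mul, hY]; exact c1)
        have r2 := key ((a 0 * star (a 0) + star (a 0) * a 0) - (a 1 + a 2) * (a 1 + a 2))
          ((Y 0 * star (Y 0) + star (Y 0) * Y 0) - (Y 1 + Y 2) * (Y 1 + Y 2))
          (by rw [cl_sub, cl_add, cl_mul, cl_mul, cl_mul, cl_add, cl_star, ha, ha, ha]; rfl) (by
          rw [hs, map_add, map_mul, map_mul, map_mul, map_add, map_star, hY, hY, hY,
            sub_eq_zero]
          exact c2)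
        have r3 := key (a 1 * a 2) (Y 1 * Y 2) (by rw [cl_mul, ha, ha]; rfl) (by
          rw [map_mul, hY, hY]; exact c3)
        have r4 := key (a 1 * a 3 - a 3) (Y 1 * Y 3 - Y 3)
          (by rw [cl_sub, cl_mul, ha, ha]; rfl) (by
          rw [hs, map_mul, hY, hY, sub_eq_zero]; exact c4)
        have r5 := key (star (a 3) * a 3 - (1 - (a 1 + a 2)))
          (star (Y 3) * Y 3 - (1 - (Y 1 + Y 2)))
          (by rw [cl_sub, cl_mul, cl_star, cl_sub, cl_add, ha, ha, ha]; rfl) (by
          rw [hs, map_mul, map_star, hs, map_one, map_add, hY, hY, hY, sub_eq_zero]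
          exact c5)
        have := ((((r1.add r2).add r3).add r4).add r5)
        simpa [dfc] using this
      have t2 : ∀ i, Tendsto (fun n => ‖a i n * b l - b l * a i n‖) ω (𝓝 0) := by
        intro i
        have h1 := (mem_central' ω).1 (Y i).2 (b l)
        rw [← ha i] at h1
        have h2 : cl ω (a i * BoundedContinuousFunction.const ℕ (b l))
            = cl ω (BoundedContinuousFunction.const ℕ (b l) * a i) := h1.symm
        exact (cl_eq ω).1 h2
      have t3 : ∀ i, Tendsto (fun n => ‖(α (g l.unpair.1) (a i n) - a i n) * c l.unpair.2‖) ω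
          (𝓝 0) := by
        intro i
        refine key (seqMap (α (g l.unpair.1)) (a i) - a i)
          (act ω α (g l.unpair.1) (Y i) - Y i) ?_ ?_
        · rw [cl_sub, ← ultraMap_cl, ha]
          rfl
        · rw [hs, ← hβ, hY]
          have h1 := hqm i ⟨g l.unpair.1, hgK l hl⟩
          rw [sub_eq_zero]
          exact h1
      have t4 : Tendsto (fun n => ∑ i, ‖a i n * b l - b l * a i n‖) ω (𝓝 0) := by
        simpa using tendsto_finset_sum Finset.univ fun i _ => t2 i
      have t5 : Tendsto (fun n => ∑ i, ‖(α (g l.unpair.1) (a i n) - a i n) * c l.unpair.2‖) ω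
          (𝓝 0) := by
        simpa using tendsto_finset_sum Finset.univ fun i _ => t3 i
      have := (t1.add t4).add t5
      simpa [lev] using this)
  -- the resulting quadruple
  let a : Fin 4 → (ℕ →ᵇ B) := fun i =>
    BoundedContinuousFunction.ofNormedAddCommGroupDiscrete (fun n => (x n).1 i) 2
      (fun n => (x n).2 i)
  have hsub : ∀ l, Tendsto (fun n => dfc (c l.unpair.2) fun i => a i n) ω (𝓝 0) ∧
      (∀ i, Tendsto (fun n => ‖a i n * b l - b l * a i n‖) ω (𝓝 0)) ∧
      (∀ i, Tendsto (fun n => ‖(α (g l.unpair.1) (a i n) - a i n) * c l.unpair.2‖) ω (𝓝 0)) := by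
    intro l
    have hl := hx l
    refine ⟨?_, fun i => ?_, fun i => ?_⟩
    · refine squeeze_zero (fun n => dfc_nonneg _ _) (fun n => ?_) hl
      unfold lev
      have s1 : 0 ≤ ∑ i, ‖(x n).1 i * b l - b l * (x n).1 i‖ :=
        Finset.sum_nonneg fun i _ => norm_nonneg _
      have s2 : 0 ≤ ∑ i, ‖(α (g l.unpair.1) ((x n).1 i) - (x n).1 i) * c l.unpair.2‖ :=
        Finset.sum_nonneg fun i _ => norm_nonneg _
      have s3 : (dfc (c l.unpair.2) fun i => a i n) = dfc (c l.unpair.2) (x n).1 := rfl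
      rw [s3]
      linarith
    · refine squeeze_zero (fun n => norm_nonneg _) (fun n => ?_) hl
      unfold lev
      have s1 : ‖(x n).1 i * b l - b l * (x n).1 i‖ ≤ ∑ i, ‖(x n).1 i * b l - b l * (x n).1 i‖ :=
        Finset.single_le_sum (f := fun i => ‖(x n).1 i * b l - b l * (x n).1 i‖)
          (fun i _ => norm_nonneg _) (Finset.mem_univ i)
      have s2 : 0 ≤ ∑ i, ‖(α (g l.unpair.1) ((x n).1 i) - (x n).1 i) * c l.unpair.2‖ :=
        Finset.sum_nonneg fun i _ => norm_nonneg _
      have s3 := dfc_nonneg (c l.unpair.2) (x n).1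
      have s4 : ‖a i n * b l - b l * a i n‖ = ‖(x n).1 i * b l - b l * (x n).1 i‖ := rfl
      rw [s4]
      linarith
    · refine squeeze_zero (fun n => norm_nonneg _) (fun n => ?_) hl
      unfold lev
      have s1 : 0 ≤ ∑ i, ‖(x n).1 i * b l - b l * (x n).1 i‖ :=
        Finset.sum_nonneg fun i _ => norm_nonneg _
      have s2 : ‖(α (g l.unpair.1) ((x n).1 i) - (x n).1 i) * c l.unpair.2‖
          ≤ ∑ i, ‖(α (g l.unpair.1) ((x n).1 i) - (x n).1 i) * c l.unpair.2‖ :=
        Finset.single_le_sum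
          (f := fun i => ‖(α (g l.unpair.1) ((x n).1 i) - (x n).1 i) * c l.unpair.2‖)
          (fun i _ => norm_nonneg _) (Finset.mem_univ i)
      have s3 := dfc_nonneg (c l.unpair.2) (x n).1
      have s4 : ‖(α (g l.unpair.1) (a i n) - a i n) * c l.unpair.2‖
          = ‖(α (g l.unpair.1) ((x n).1 i) - (x n).1 i) * c l.unpair.2‖ := rfl
      rw [s4]
      linarith
  have hcentral : ∀ i, cl ω (a i) ∈ CentralSeq ω B := by
    intro i
    rw [mem_central']
    intro e
    have h1 : ∀ k, cl ω (a i) * constSeq ω (b k) = constSeq ω (b k) * cl ω (a i) := by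
      intro k
      change cl ω (a i * BoundedContinuousFunction.const ℕ (b k))
        = cl ω (BoundedContinuousFunction.const ℕ (b k) * a i)
      exact (cl_eq ω).2 ((hsub k).2.1 i)
    exact comm_closure ω (y := cl ω (a i))
      (T := Set.range fun k => BoundedContinuousFunction.const ℕ (b k)) (fun a => a)
      (fun _ _ => rfl) (fun _ => le_rfl) (by
        rintro _ ⟨k, rfl⟩
        exact (h1 k).symm) (BoundedContinuousFunction.const ℕ e) (by
        rw [Metric.mem_closure_iff]
        intro ε hε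
        have h4 : e ∈ closure (Set.range b) := TopologicalSpace.denseRange_denseSeq B e
        obtain ⟨_, ⟨k, rfl⟩, hk⟩ := Metric.mem_closure_iff.1 h4 ε hε
        refine ⟨_, ⟨k, rfl⟩, ?_⟩
        refine lt_of_le_of_lt ?_ hk
        exact (BoundedContinuousFunction.dist_le dist_nonneg).2 fun n => le_rfl)
  let W : Fin 4 → FF ω B := fun i => ⟨cl ω (a i), hcentral i⟩
  have back : ∀ (z : ℕ →ᵇ B) (Z : FF ω B), cl ω z = (Z : Ultrapower ω B) →
      (∀ k, Tendsto (fun n => ‖z n * c k‖) ω (𝓝 0)) → π Z = 0 := by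
    intro z Z hz h
    refine cann Z fun k => ?_
    rw [← hz, mul_const_iff]
    exact h k
  have hd : ∀ k, Tendsto (fun n => dfc (c k) fun i => a i n) ω (𝓝 0) := by
    intro k
    have h1 := (hsub (Nat.pair 0 k)).1
    rwa [Nat.unpair_pair] at h1
  have hcert : Cert (π (W 0)) (π (W 1)) (π (W 2)) (π (W 3)) := by
    refine ⟨?_, ?_, ?_, ?_, ?_⟩
    · have h1 := back (a 0 * a 0) (W 0 * W 0) rfl fun k => by
        refine squeeze_zero (fun n => norm_nonneg _) (fun n => ?_) (hd k)
        unfold dfc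
        change ‖(a 0 n * a 0 n) * c k‖ ≤ _
        have n2 := norm_nonneg (((a 0 n * star (a 0 n) + star (a 0 n) * a 0 n) -
          (a 1 n + a 2 n) * (a 1 n + a 2 n)) * c k)
        have n3 := norm_nonneg ((a 1 n * a 2 n) * c k)
        have n4 := norm_nonneg ((a 1 n * a 3 n - a 3 n) * c k)
        have n5 := norm_nonneg ((star (a 3 n) * a 3 n - (1 - (a 1 n + a 2 n))) * c k)
        linarith
      rwa [map_mul] at h1
    · have h1 := back ((a 0 * star (a 0) + star (a 0) * a 0) - (a 1 + a 2) * (a 1 + a 2))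
        ((W 0 * star (W 0) + star (W 0) * W 0) - (W 1 + W 2) * (W 1 + W 2)) rfl fun k => by
        refine squeeze_zero (fun n => norm_nonneg _) (fun n => ?_) (hd k)
        unfold dfc
        change ‖((a 0 n * star (a 0 n) + star (a 0 n) * a 0 n) -
          (a 1 n + a 2 n) * (a 1 n + a 2 n)) * c k‖ ≤ _
        have n2 := norm_nonneg ((a 0 n * a 0 n) * c k)
        have n3 := norm_nonneg ((a 1 n * a 2 n) * c k)
        have n4 := norm_nonneg ((a 1 n * a 3 n - a 3 n) * c k)
        have n5 := norm_nonneg ((star (a 3 n) * a 3 n - (1 - (a 1 n + a 2 n))) * c k)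
        linarith
      rw [hs, map_add, map_mul, map_mul, map_mul, map_add, map_star, sub_eq_zero] at h1
      exact h1
    · have h1 := back (a 1 * a 2) (W 1 * W 2) rfl fun k => by
        refine squeeze_zero (fun n => norm_nonneg _) (fun n => ?_) (hd k)
        unfold dfc
        change ‖(a 1 n * a 2 n) * c k‖ ≤ _
        have n1 := norm_nonneg ((a 0 n * a 0 n) * c k)
        have n2 := norm_nonneg (((a 0 n * star (a 0 n) + star (a 0 n) * a 0 n) -
          (a 1 n + a 2 n) * (a 1 n + a 2 n)) * c k)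
        have n4 := norm_nonneg ((a 1 n * a 3 n - a 3 n) * c k)
        have n5 := norm_nonneg ((star (a 3 n) * a 3 n - (1 - (a 1 n + a 2 n))) * c k)
        linarith
      rwa [map_mul] at h1
    · have h1 := back (a 1 * a 3 - a 3) (W 1 * W 3 - W 3) rfl fun k => by
        refine squeeze_zero (fun n => norm_nonneg _) (fun n => ?_) (hd k)
        unfold dfc
        change ‖(a 1 n * a 3 n - a 3 n) * c k‖ ≤ _
        have n1 := norm_nonneg ((a 0 n * a 0 n) * c k)
        have n2 := norm_nonneg (((a 0 n * star (a 0 n) + star (a 0 n) * a 0 n) -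
          (a 1 n + a 2 n) * (a 1 n + a 2 n)) * c k)
        have n3 := norm_nonneg ((a 1 n * a 2 n) * c k)
        have n5 := norm_nonneg ((star (a 3 n) * a 3 n - (1 - (a 1 n + a 2 n))) * c k)
        linarith
      rw [hs, map_mul, sub_eq_zero] at h1
      exact h1
    · have h1 := back (star (a 3) * a 3 - (1 - (a 1 + a 2)))
        (star (W 3) * W 3 - (1 - (W 1 + W 2))) rfl fun k => by
        refine squeeze_zero (fun n => norm_nonneg _) (fun n => ?_) (hd k)
        unfold dfc
        change ‖(star (a 3 n) * a 3 n - (1 - (a 1 n + a 2 n))) * c k‖ ≤ _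
        have n1 := norm_nonneg ((a 0 n * a 0 n) * c k)
        have n2 := norm_nonneg (((a 0 n * star (a 0 n) + star (a 0 n) * a 0 n) -
          (a 1 n + a 2 n) * (a 1 n + a 2 n)) * c k)
        have n3 := norm_nonneg ((a 1 n * a 2 n) * c k)
        have n4 := norm_nonneg ((a 1 n * a 3 n - a 3 n) * c k)
        linarith
      rw [hs, map_mul, map_star, hs, map_one, map_add, sub_eq_zero] at h1
      exact h1
  have hfix : ∀ i, π (W i) ∈ fixAlg Q (fun g => βQ g) := by
    intro i h
    obtain ⟨j, rfl⟩ := hg h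
    change βQ (g j) (π (W i)) = π (W i)
    rw [hβ, ← sub_eq_zero, ← hs]
    refine back (seqMap (α (g j)) (a i) - a i) _ rfl fun k => ?_
    have h1 := (hsub (Nat.pair j k)).2.2 i
    rw [Nat.unpair_pair] at h1
    exact h1
  have hcert' : Cert (⟨π (W 0), hfix 0⟩ : fixAlg Q (fun g => βQ g)) ⟨π (W 1), hfix 1⟩
      ⟨π (W 2), hfix 2⟩ ⟨π (W 3), hfix 3⟩ := by
    obtain ⟨c1, c2, c3, c4, c5⟩ := hcert
    exact ⟨Subtype.ext c1, Subtype.ext c2, Subtype.ext c3, Subtype.ext c4, Subtype.ext c5⟩
  exact hcert'.noChar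

end Vale.Agent.P095N
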