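import Mathlib

/-!
# Quotients of C*-algebras by closed two-sided star ideals
-/

set_option autoImplicit false

open Topology

namespace Vale.Agent.P095N.QuotX

universe u

/-- an element of an approximate unit adapted to `w` -/
theorem approx {F : Type u} [CStarAlgebra F] (w : F) (δ : ℝ) (hδ : 0 < δ) :
    ∃ c d : F, star c = c ∧ ‖c‖ ≤ 1 ∧ ‖w * c‖ ^ 2 ≤ δ ∧ 1 - c = star w * w * d := by
  letI := CStarAlgebra.spectralOrder F
  haveI := CStarAlgebra.spectralOrderedRing F
  set a := star w * w with ha'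
  have ha : 0 ≤ a := star_mul_self_nonneg w
  have hsa : IsSelfAdjoint a := IsSelfAdjoint.of_nonneg ha
  have hspec : ∀ t ∈ spectrum ℝ a, 0 ≤ t := fun t ht => spectrum_nonneg_of_nonneg ha ht
  have hc1 : ContinuousOn (fun t : ℝ => δ / (δ + t)) (spectrum ℝ a) := by
    refine ContinuousOn.div continuousOn_const (continuousOn_const.add continuousOn_id) ?_
    intro t ht
    have := hspec t ht
    show δ + t ≠ 0
    positivity
  have hc2 : ContinuousOn (fun t : ℝ => 1 / (δ + t)) (spectrum ℝ a) := by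
    refine ContinuousOn.div continuousOn_const (continuousOn_const.add continuousOn_id) ?_
    intro t ht
    have := hspec t ht
    show δ + t ≠ 0
    positivity
  set c := cfc (fun t : ℝ => δ / (δ + t)) a with hc
  have hcs : star c = c := cfc_predicate (fun t : ℝ => δ / (δ + t)) a
  refine ⟨c, cfc (fun t : ℝ => 1 / (δ + t)) a, hcs, ?_, ?_, ?_⟩
  · refine norm_cfc_le zero_le_one fun t ht => ?_
    have := hspec t ht
    rw [Real.norm_eq_abs, abs_of_nonneg (by positivity), div_le_one (by positivity)]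
    linarith
  · have h1 : ‖w * c‖ ^ 2 = ‖c * a * c‖ := by
      rw [pow_two, ← CStarRing.norm_star_mul_self, star_mul, hcs, ha']
      congr 1
      noncomm_ring
    rw [h1]
    have h2 : c * a * c = cfc (fun t : ℝ => δ / (δ + t) * t * (δ / (δ + t))) a := by
      rw [cfc_mul (fun t : ℝ => δ / (δ + t) * t) (fun t : ℝ => δ / (δ + t)) a
        (hc1.mul continuousOn_id) hc1, cfc_mul (fun t : ℝ => δ / (δ + t)) (fun t : ℝ => t) a
        hc1 continuousOn_id, cfc_id' ℝ a]
    rw [h2]
    refine norm_cfc_le hδ.le fun t ht => ?_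
    have ht0 := hspec t ht
    rw [Real.norm_eq_abs, abs_of_nonneg (by positivity)]
    have h3 : δ / (δ + t) ≤ 1 := by
      rw [div_le_one (by positivity)]
      linarith
    have h4 : δ / (δ + t) * t ≤ δ := by
      rw [div_mul_eq_mul_div, div_le_iff₀ (by positivity)]
      nlinarith
    calc δ / (δ + t) * t * (δ / (δ + t)) ≤ δ * 1 :=
          mul_le_mul h4 h3 (by positivity) hδ.le
      _ = δ := mul_one δ
  · have h5 : (1 : F) = cfc (fun _ : ℝ => (1 : ℝ)) a := (cfc_const_one ℝ a).symm
    have h6 : a * cfc (fun t : ℝ => 1 / (δ + t)) a = cfc (fun t : ℝ => t * (1 / (δ + t))) a := by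
      rw [cfc_mul (fun t : ℝ => t) (fun t : ℝ => 1 / (δ + t)) a continuousOn_id hc2, cfc_id' ℝ a]
    rw [h6]
    conv_lhs => rw [h5, hc, ← cfc_sub (fun _ : ℝ => (1 : ℝ)) (fun t : ℝ => δ / (δ + t)) a
      continuousOn_const hc1]
    refine cfc_congr fun t ht => ?_
    have ht0 := hspec t ht
    have : δ + t ≠ 0 := by positivity
    show 1 - δ / (δ + t) = t * (1 / (δ + t))
    field_simp
    ring

section

variable {F : Type u} [CStarAlgebra F] (J : Ideal F) [J.IsTwoSided] [hcl : IsClosed (J : Set F)]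
  (hst : ∀ x ∈ J, star x ∈ J)

theorem norm_mul_le' (x y : F ⧸ J) : ‖x * y‖ ≤ ‖x‖ * ‖y‖ := by
  refine le_of_forall_pos_le_add fun ε hε => ?_
  have := ((Metric.nhds_basis_ball.prod_nhds Metric.nhds_basis_ball).tendsto_iff
    Metric.nhds_basis_ball).mp (continuous_mul.tendsto (‖x‖, ‖y‖)) ε hε
  simp only [Set.mem_prod, Metric.mem_ball, and_imp, Prod.forall, Prod.exists] at this
  rcases this with ⟨ε₁, ε₂, ⟨h₁, h₂⟩, h⟩
  obtain ⟨a, rfl, ha⟩ := Submodule.Quotient.norm_mk_lt x h₁
  obtain ⟨b, rfl, hb⟩ := Submodule.Quotient.norm_mk_lt y h₂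
  simp only [dist, abs_sub_lt_iff] at h
  have n1 := Submodule.Quotient.norm_mk_le J a
  have n2 := Submodule.Quotient.norm_mk_le J b
  specialize h ‖a‖ ‖b‖ ⟨by linarith, by linarith⟩ ⟨by linarith, by linarith⟩
  have e : (Submodule.Quotient.mk a : F ⧸ J) * Submodule.Quotient.mk b =
    Submodule.Quotient.mk (a * b) := rfl
  rw [e]
  calc ‖(Submodule.Quotient.mk (a * b) : F ⧸ J)‖ ≤ ‖a‖ * ‖b‖ :=
        (Submodule.Quotient.norm_mk_le J (a * b)).trans (norm_mul_le a b)
    _ ≤ _ := by linarith [h.1]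

@[instance_reducible] noncomputable def nring : NormedRing (F ⧸ J) :=
  { Ideal.Quotient.ring J, Submodule.Quotient.normedAddCommGroup J with
    norm_mul_le := norm_mul_le' J }

/-- the star operation of the quotient -/
noncomputable def st : (F ⧸ J) → (F ⧸ J) :=
  Quotient.map' (fun x => star x) (by
    intro a b hab
    have h1 : (Submodule.Quotient.mk a : F ⧸ J) = Submodule.Quotient.mk b := Quotient.sound' hab
    rw [Submodule.Quotient.eq] at h1
    have h2 := hst _ h1
    rw [star_sub] at h2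
    exact Quotient.exact' ((Submodule.Quotient.eq J).2 h2))

theorem st_mk (x : F) : st J hst (Submodule.Quotient.mk x) = Submodule.Quotient.mk (star x) := rfl

@[instance_reducible] noncomputable def sring : @StarRing (F ⧸ J)
    (nring J).toRing.toNonUnitalRing.toNonUnitalNonAssocRing.toNonUnitalNonAssocSemiring :=
  letI := nring J
  { star := st J hst
    star_involutive := by
      intro x
      obtain ⟨a, rfl⟩ := Submodule.Quotient.mk_surjective J x
      show st J hst (st J hst _) = _
      rw [st_mk, st_mk, star_star]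
    star_mul := by
      intro x y
      obtain ⟨a, rfl⟩ := Submodule.Quotient.mk_surjective J x
      obtain ⟨b, rfl⟩ := Submodule.Quotient.mk_surjective J y
      show (Submodule.Quotient.mk (star (a * b)) : F ⧸ J) = Submodule.Quotient.mk (star b * star a)
      rw [star_mul]
    star_add := by
      intro x y
      obtain ⟨a, rfl⟩ := Submodule.Quotient.mk_surjective J x
      obtain ⟨b, rfl⟩ := Submodule.Quotient.mk_surjective J y
      show (Submodule.Quotient.mk (star (a + b)) : F ⧸ J) = Submodule.Quotient.mk (star a + star b)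
      rw [star_add] }

include hst in
theorem cstar_ineq (x : F ⧸ J) : ‖x‖ * ‖x‖ ≤ ‖st J hst x * x‖ := by
  obtain ⟨a, rfl⟩ := Submodule.Quotient.mk_surjective J x
  rw [st_mk]
  have e : (Submodule.Quotient.mk (star a) : F ⧸ J) * Submodule.Quotient.mk a =
    Submodule.Quotient.mk (star a * a) := rfl
  rw [e]
  refine le_of_forall_pos_le_add fun ε hε => ?_
  obtain ⟨b, hb, hbn⟩ := Submodule.Quotient.norm_mk_lt
    (Submodule.Quotient.mk (star a * a) : F ⧸ J) (show (0 : ℝ) < ε / 2 by positivity)
  rw [Submodule.Quotient.eq] at hb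
  set w := b - star a * a with hw
  obtain ⟨c, d, hc1, hc2, hc3, hc4⟩ := approx w ((ε / 2) ^ 2) (by positivity)
  have hmem : 1 - c ∈ J := by
    rw [hc4]
    have h1 : star w * w ∈ J := J.mul_mem_left _ hb
    exact J.mul_mem_right _ h1
  have hac : (Submodule.Quotient.mk a : F ⧸ J) = Submodule.Quotient.mk (a * c) := by
    rw [Submodule.Quotient.eq]
    have : a - a * c = a * (1 - c) := by noncomm_ring
    rw [this]
    exact J.mul_mem_left _ hmem
  have hwc : ‖w * c‖ ≤ ε / 2 := by
    have := abs_le_of_sq_le_sq hc3 (by positivity)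
    exact (le_abs_self _).trans (by simpa using this)
  have h1 : ‖(Submodule.Quotient.mk a : F ⧸ J)‖ ≤ ‖a * c‖ := by
    rw [hac]
    exact Submodule.Quotient.norm_mk_le J _
  have h2 : ‖a * c‖ * ‖a * c‖ ≤ ‖b‖ + ε / 2 := by
    rw [← CStarRing.norm_star_mul_self]
    have e2 : star (a * c) * (a * c) = c * b * c - c * (w * c) := by
      rw [star_mul, hc1, hw]
      noncomm_ring
    rw [e2]
    refine (norm_sub_le _ _).trans ?_
    have n1 : ‖c * b * c‖ ≤ ‖b‖ := by
      calc ‖c * b * c‖ ≤ ‖c‖ * ‖b‖ * ‖c‖ := (norm_mul_le _ _).trans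
            (mul_le_mul_of_nonneg_right (norm_mul_le _ _) (norm_nonneg _))
        _ ≤ 1 * ‖b‖ * 1 := by gcongr
        _ = ‖b‖ := by ring
    have n2 : ‖c * (w * c)‖ ≤ ε / 2 := by
      calc ‖c * (w * c)‖ ≤ ‖c‖ * ‖w * c‖ := norm_mul_le _ _
        _ ≤ 1 * (ε / 2) := by gcongr
        _ = ε / 2 := one_mul _
    linarith
  have h3 : ‖(Submodule.Quotient.mk a : F ⧸ J)‖ * ‖(Submodule.Quotient.mk a : F ⧸ J)‖ ≤
      ‖a * c‖ * ‖a * c‖ := mul_le_mul h1 h1 (norm_nonneg _) (norm_nonneg _)
  linarith

@[instance_reducible] noncomputable def cstar : CStarAlgebra (F ⧸ J) :=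
  letI r := nring J
  letI s := sring J hst
  { r, s with
    complete := (Submodule.Quotient.completeSpace J).complete
    norm_mul_self_le := cstar_ineq J hst
    algebraMap := (Ideal.Quotient.algebra ℂ : Algebra ℂ (F ⧸ J)).algebraMap
    smul := fun c x => c • x
    commutes' := (Ideal.Quotient.algebra ℂ : Algebra ℂ (F ⧸ J)).commutes'
    smul_def' := (Ideal.Quotient.algebra ℂ : Algebra ℂ (F ⧸ J)).smul_def'
    norm_smul_le := (Submodule.Quotient.normedSpace J ℂ).norm_smul_le
    star_smul := by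
      intro c x
      obtain ⟨a, rfl⟩ := Submodule.Quotient.mk_surjective J x
      show (Submodule.Quotient.mk (star (c • a)) : F ⧸ J) = Submodule.Quotient.mk (star c • star a)
      rw [star_smul] }

end

end Vale.Agent.P095N.QuotX
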