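import Vale.Agent.P101.DimDropDef

/-!
# P095N: definitions of the non-unital final statement
-/

open Filter Topology BoundedContinuousFunction

namespace Vale.Agent.P095N

open Vale.Agent.P101

universe u v

/-- `ρ` induces a unital star homomorphism from `I(p, q)` to the fixed point algebra of the action
of `H` on `F_ω(A) = (A_ω ∩ A') / Ann(A)`; here `ρ x` is a bounded sequence in `A` that represents
the image of `x`. -/
structure Induces (ω : Ultrafilter ℕ) {A : Type u} [NonUnitalCStarAlgebra A] {G : Type v} [Group G]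
    (α : G →* (A ≃⋆ₐ[ℂ] A)) (H : Subgroup G) (p q : ℕ) (ρ : DimDrop p q → (ℕ →ᵇ A)) : Prop where
  central : ∀ x (a : A), Tendsto (fun n => ‖ρ x n * a - a * ρ x n‖) ω (𝓝 0)
  add : ∀ x y (a : A), Tendsto (fun n => ‖(ρ (x + y) n - (ρ x n + ρ y n)) * a‖) ω (𝓝 0)
  smul : ∀ (c : ℂ) x (a : A), Tendsto (fun n => ‖(ρ (c • x) n - c • ρ x n) * a‖) ω (𝓝 0)
  mul : ∀ x y (a : A), Tendsto (fun n => ‖(ρ (x * y) n - ρ x n * ρ y n) * a‖) ω (𝓝 0)
  star : ∀ x (a : A), Tendsto (fun n => ‖(ρ (star x) n - star (ρ x n)) * a‖) ω (𝓝 0)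
  one : ∀ a : A, Tendsto (fun n => ‖ρ 1 n * a - a‖) ω (𝓝 0)
  fixed : ∀ g ∈ H, ∀ x (a : A), Tendsto (fun n => ‖(α g (ρ x n) - ρ x n) * a‖) ω (𝓝 0)

/-- every dimension drop algebra `I(k, k+1)`, `k ≥ 2`, has a unital star homomorphism into
`F_ω(A)^{α|H}` -/
def DimDropsMap (ω : Ultrafilter ℕ) {A : Type u} [NonUnitalCStarAlgebra A] {G : Type v} [Group G]
    (α : G →* (A ≃⋆ₐ[ℂ] A)) (H : Subgroup G) : Prop :=
  ∀ n, ∃ ρ : DimDrop (n + 2) (n + 3) → (ℕ →ᵇ A), Induces ω α H (n + 2) (n + 3) ρ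

end Vale.Agent.P095N
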