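import Vale.Agent.P095N.Stmt

/-!
# P095N: characters of the fixed point algebra, in terms of representing sequences
-/

open Filter Topology BoundedContinuousFunction

namespace Vale.Agent.P095N

universe u v

/-- The bounded sequences in `A` which represent the elements of `F_ω(A)^{α|H}`, where
`F_ω(A) = (A_ω ∩ A') / Ann(A)`. -/
def RepSeq (ω : Ultrafilter ℕ) {A : Type u} [NonUnitalCStarAlgebra A] {G : Type v} [Group G]
    (α : G →* (A ≃⋆ₐ[ℂ] A)) (H : Subgroup G) : Set (ℕ →ᵇ A) :=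
  {z | (∀ a : A, Tendsto (fun n => ‖z n * a - a * z n‖) ω (𝓝 0)) ∧
    ∀ g ∈ H, ∀ a : A, Tendsto (fun n => ‖(α g (z n) - z n) * a‖) ω (𝓝 0)}

/-- `χ` induces a character (a nonzero star homomorphism to `ℂ`) of `F_ω(A)^{α|H}`. -/
structure IsCharacter (ω : Ultrafilter ℕ) {A : Type u} [NonUnitalCStarAlgebra A] {G : Type v}
    [Group G] (α : G →* (A ≃⋆ₐ[ℂ] A)) (H : Subgroup G) (χ : (ℕ →ᵇ A) → ℂ) : Prop where
  congr : ∀ z ∈ RepSeq ω α H, ∀ w ∈ RepSeq ω α H,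
    (∀ a : A, Tendsto (fun n => ‖(z n - w n) * a‖) ω (𝓝 0)) → χ z = χ w
  add : ∀ z ∈ RepSeq ω α H, ∀ w ∈ RepSeq ω α H, χ (z + w) = χ z + χ w
  smul : ∀ (c : ℂ), ∀ z ∈ RepSeq ω α H, χ (c • z) = c * χ z
  mul : ∀ z ∈ RepSeq ω α H, ∀ w ∈ RepSeq ω α H, χ (z * w) = χ z * χ w
  star : ∀ z ∈ RepSeq ω α H, χ (star z) = star (χ z)
  ne_zero : ∃ z ∈ RepSeq ω α H, χ z ≠ 0

/-- `F_ω(A)^{α|H}` has no characters -/
def CharacterFree (ω : Ultrafilter ℕ) {A : Type u} [NonUnitalCStarAlgebra A] {G : Type v}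
    [Group G] (α : G →* (A ≃⋆ₐ[ℂ] A)) (H : Subgroup G) : Prop :=
  ∀ χ : (ℕ →ᵇ A) → ℂ, ¬ IsCharacter ω α H χ

end Vale.Agent.P095N
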