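import Vale.Agent.P095N.StmtC

/-!
# P095N: local approximation by subsystems
-/

namespace Vale.Agent.P095N

universe u v

/-- `(B, β)` is mapped equivariantly to `(A, α)` by `ι`, and the elements of `F` are within `ε` of
the range of `ι`. -/
def Approximates {A : Type u} [NonUnitalCStarAlgebra A] {G : Type v} [Group G]
    (α : G →* (A ≃⋆ₐ[ℂ] A)) (F : Finset A) (ε : ℝ) (K : Subgroup G) (B : Type u)
    [NonUnitalCStarAlgebra B] (β : K →* (B ≃⋆ₐ[ℂ] B)) : Prop :=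
  ∃ ι : B →⋆ₙₐ[ℂ] A, (∀ (k : K) b, ι (β k b) = α k (ι b)) ∧ ∀ a ∈ F, ∃ b, ‖a - ι b‖ < ε

/-- `(A, α)` is locally approximated by subsystems `(B, β)` such that every `I(k, k+1)` has a
unital star homomorphism into `F_ω(B)^β`. -/
def LocallyAbsorbing (ω : Ultrafilter ℕ) {A : Type u} [NonUnitalCStarAlgebra A] {G : Type v}
    [Group G] (α : G →* (A ≃⋆ₐ[ℂ] A)) : Prop :=
  ∀ (s : Finset G) (F : Finset A) (ε : ℝ), 0 < ε → ∃ (K : Subgroup G) (B : Type u)
    (_ : NonUnitalCStarAlgebra B) (_ : TopologicalSpace.SeparableSpace B)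
    (β : K →* (B ≃⋆ₐ[ℂ] B)), (s : Set G) ⊆ K ∧ Approximates α F ε K B β ∧ DimDropsMap ω β ⊤

end Vale.Agent.P095N
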